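import Vale.Agent.P148.R2.H678.Hub

/-!
# P148, row N1 (comb gates): links between hubs

The part of a corridor crossing after its last visit of the first hub and before the next visit of
the second one.
-/

open Set Relation Metric

namespace Vale.Agent.P148.R2.H678

open Vale.Agent.P148.R2.H592 (nbr nbr_symm ConnIn)
open Vale.Agent.P148.R2.H995 (nsup Circ Chain)

/-- A path from `R` to `R'` in the box `B` whose inner points belong to `P` and are not explored. -/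
def Link (X E P R R' B : Set ℂ) : Prop :=
  ∃ (n : ℕ) (v : ℕ → ℂ), 0 < n ∧ (∀ i < n, nbr X (v i) (v (i + 1))) ∧ v 0 ∈ R ∧ v n ∈ R' ∧
    (∀ i, 0 < i → i < n → v i ∈ P ∧ v i ∉ E) ∧ ∀ i ≤ n, v i ∈ B

theorem Link.mono {X E P R R' B E' P' R₁ R₁' B' : Set ℂ} (h : Link X E P R R' B) (hE : E' ⊆ E)
    (hP : P ⊆ P') (hR : R ⊆ R₁) (hR' : R' ⊆ R₁') (hB : B ⊆ B') : Link X E' P' R₁ R₁' B' := by
  obtain ⟨n, v, h0, h1, h2, h3, h4, h5⟩ := h
  exact ⟨n, v, h0, h1, hR h2, hR' h3, fun i hi hin =>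
    ⟨hP (h4 i hi hin).1, fun hc => (h4 i hi hin).2 (hE hc)⟩, fun i hi => hB (h5 i hi)⟩

theorem link_of_ccr {M : ℕ} {X P E C C' : Set ℂ} {z z' : ℂ} (h : CCr M X P z z')
    (h1 : ∀ v ∈ CBox M z z', (cio z z' * (v - z)).re ≤ sd M / 2 → v ∈ ball z (sd M))
    (h2 : ∀ v ∈ CBox M z z', ‖z' - z‖ - sd M / 2 ≤ (cio z z' * (v - z)).re → v ∈ ball z' (sd M))
    (hP : P ⊆ X)
    (hd : Disjoint (hub (nbr X) (X ∩ ball z (sd M)) C) (hub (nbr X) (X ∩ ball z' (sd M)) C'))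
    (hE : ∀ v ∈ CBox M z z', v ∈ E → v ∈ hub (nbr X) (X ∩ ball z (sd M)) C ∨
      v ∈ hub (nbr X) (X ∩ ball z' (sd M)) C') :
    Link X E P (rim (nbr X) (X ∩ ball z (sd M)) C) (rim (nbr X) (X ∩ ball z' (sd M)) C')
      (CBox M z z') := by
  obtain ⟨n, v, a1, a2, a3, a4⟩ := h
  have hB : ∀ i ≤ n, v i ∈ CBox M z z' := fun i hi => (a2 i hi).2
  have h0 : v 0 ∈ hub (nbr X) (X ∩ ball z (sd M)) C :=
    core_sub_hub (seed_core ⟨hP (a2 0 (Nat.zero_le n)).1, h1 _ (hB 0 (Nat.zero_le n)) a3⟩)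
  have hn : v n ∈ hub (nbr X) (X ∩ ball z' (sd M)) C' :=
    core_sub_hub (seed_core ⟨hP (a2 n le_rfl).1, h2 _ (hB n le_rfl) a4⟩)
  obtain ⟨a, b, hab, hbn, ha, hb, hj⟩ := between (fun _ _ => nbr_symm) a1 hd h0 hn
  refine ⟨b - a, fun i => v (a + i), by omega, fun i hi => a1 (a + i) (by omega), ha, ?_, ?_, ?_⟩
  · simp only [show a + (b - a) = b by omega]
    exact hb
  · intro i hi hin
    have h3 := hj (a + i) (by omega) (by omega)
    refine ⟨(a2 _ (by omega)).1, fun hc => ?_⟩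
    rcases hE _ (hB (a + i) (by omega)) hc with h4 | h4
    · exact h3.1 h4
    · exact h3.2 h4
  · intro i hi
    exact hB _ (by omega)

/-- Reversal. -/
theorem Link.symm {X E P R R' B : Set ℂ} (h : Link X E P R R' B) : Link X E P R' R B := by
  obtain ⟨n, v, h0, h1, h2, h3, h4, h5⟩ := h
  refine ⟨n, fun i => v (n - i), h0, fun i hi => ?_, ?_, ?_, ?_, ?_⟩
  · have h6 : n - i = (n - (i + 1)) + 1 := by omega
    show nbr X (v (n - i)) (v (n - (i + 1)))
    rw [h6]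
    exact nbr_symm (h1 (n - (i + 1)) (by omega))
  · simpa using h3
  · simpa using h2
  · intro i hi hin
    exact h4 (n - i) (by omega) (by omega)
  · intro i hi
    exact h5 (n - i) (by omega)

/-- A link between two sets of the same colour as a chain. -/
theorem Link.chain {X E P R R' B Q : Set ℂ} (h : Link X E P R R' B) (hR : R ⊆ Q) (hR' : R' ⊆ Q)
    (hP : ∀ v ∈ P, v ∉ E → v ∈ Q) : ∃ a ∈ R, ∃ b ∈ R', Chain (nbr X) (Q ∩ B) a b := by
  obtain ⟨n, v, h0, h1, h2, h3, h4, h5⟩ := h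
  refine ⟨v 0, h2, v n, h3, n, v, h1, fun i hi => ⟨?_, h5 i hi⟩, rfl, rfl⟩
  rcases Nat.eq_zero_or_pos i with hi0 | hi0
  · subst hi0; exact hR h2
  · rcases hi.lt_or_eq with h' | h'
    · exact hP _ (h4 i hi0 h').1 (h4 i hi0 h').2
    · subst h'; exact hR' h3

/-- A link from a set of the other colour: the foot and the chain after it. -/
theorem Link.foot {X E P R R' B Q : Set ℂ} (h : Link X E P R R' B) (hR' : R' ⊆ Q)
    (hP : ∀ v ∈ P, v ∉ E → v ∈ Q) :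
    ∃ a ∈ R, ∃ w, nbr X a w ∧ a ∈ B ∧ ∃ b ∈ R', Chain (nbr X) (Q ∩ B) w b := by
  obtain ⟨n, v, h0, h1, h2, h3, h4, h5⟩ := h
  refine ⟨v 0, h2, v 1, by simpa using h1 0 h0, h5 0 (Nat.zero_le n), v n, h3, n - 1,
    fun i => v (i + 1), fun i hi => h1 (i + 1) (by omega), fun i hi => ⟨?_, h5 (i + 1) (by omega)⟩,
    rfl, ?_⟩
  · rcases (show i + 1 ≤ n by omega).lt_or_eq with h' | h'
    · exact hP _ (h4 (i + 1) (by omega) h').1 (h4 (i + 1) (by omega) h').2
    · show v (i + 1) ∈ Q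
      rw [h']; exact hR' h3
  · simp only [show n - 1 + 1 = n by omega]

/-- The end of a link escapes: its inner part and its other end are off the core. -/
theorem Link.escape {X E P R' B S C : Set ℂ} (h : Link X E P (rim (nbr X) S C) R' B)
    (hE : hub (nbr X) S C ⊆ E) (hR' : Disjoint R' (core (nbr X) S C)) :
    ∃ a ∈ rim (nbr X) S C, ∃ b ∈ R', Chain (nbr X) ((core (nbr X) S C)ᶜ ∩ B) a b := by
  obtain ⟨n, v, h0, h1, h2, h3, h4, h5⟩ := h
  refine ⟨v 0, h2, v n, h3, n, v, h1, fun i hi => ⟨?_, h5 i hi⟩, rfl, rfl⟩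
  rcases Nat.eq_zero_or_pos i with hi0 | hi0
  · subst hi0; exact h2.2
  · rcases hi.lt_or_eq with h' | h'
    · exact fun hc => (h4 i hi0 h').2 (hE (core_sub_hub hc))
    · subst h'; exact fun hc => (Set.disjoint_left.1 hR') h3 hc

end Vale.Agent.P148.R2.H678
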