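import Vale.Agent.P148.R2.H678.Wrd
import Vale.Agent.P148.R2.H419.Col6
import Vale.Agent.P148.R2.H112.Ori3
import Vale.Agent.P148.R2.H172.Sc1

/-!
# P148, row SCENE: from the good event of the law to world 0

For two colourings in the good event `A0` of `combLaw` : the comb data `H419.Col` of the composite
colouring, the world `wd` is the genuine one (`wc_of_A0`), its free sites are the component of the
centre, the facts of world 0 (`WD`), and the ring of feet with the true orientation (`exists_W1`).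
-/

set_option linter.unusedSectionVars false

open Set Relation Metric Function

namespace Vale.Agent.P148.R2.H678

open Vale.Agent.P148.R2.H258 Vale.Agent.P148.R2.H565 Vale.Agent.P148.R2.H419
open Vale.Agent.P148.R2.N (ms nc gateC gbox cell ms_pos ms_le_one)
open Vale.Agent.P148.R2.H592 (nbr nbr_symm ConnIn HullTri comp comp_subset Fc)
open Vale.Agent.P148.R2.H995 (nsup)
open Vale.Agent.P148.R2.H566 (W0)
open Vale.Agent.P148.R2.H938 (pc)
open Vale.Agent.P148.R2.H959 (reg)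
open Vale.Agent.P148.R2.H172 (cs cs_apply combLaw)

/-! ### the comb data -/

section comb

variable {M : ℕ} {X : Set ℂ} {b : ZMod 3 → ℂ} [Fintype X] (hM : 0 < M) {c₁ c₂ : X → Bool}

/-- The composite colouring. -/
noncomputable abbrev cw (M : ℕ) (c₁ c₂ : X → Bool) : X → Bool := H838.s12 (HubV M X) c₁ c₂

theorem w_eq (c₁ c₂ : X → Bool) : (combLaw hM X (Subtype.val : X → ℂ)).w c₁ c₂ = cw M c₁ c₂ := rfl

omit [Fintype X] in
theorem cs_val (σ : X → Bool) (v : X) : cs Subtype.val σ v.1 = σ v :=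
  cs_apply Subtype.val_injective σ v

omit [Fintype X] in
theorem cs_true {σ : X → Bool} {z : ℂ} : cs (Subtype.val : X → ℂ) σ z = true ↔
    z ∈ pc Subtype.val true σ := by
  classical
  unfold cs
  exact decide_eq_true_iff

omit [Fintype X] in
theorem cs_false {σ : X → Bool} {z : ℂ} (hz : z ∈ X) : cs (Subtype.val : X → ℂ) σ z = false ↔
    z ∈ pc Subtype.val false σ := by
  rw [mem_pc_val hz, ← cs_val σ ⟨z, hz⟩]

/-- **The comb data of the composite colouring.** -/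
theorem col_of_A0 (h : HullTri X b) (hfar : ∀ j, 1 + 2 * ms M ≤ nsup (b j))
    (hA : (combLaw hM X (Subtype.val : X → ℂ)).A0 c₁ c₂) :
    Col M X b (pc Subtype.val true c₁) (pc Subtype.val false c₁) (pc Subtype.val true c₂)
      (pc Subtype.val false c₂) (cs Subtype.val (cw M c₁ c₂)) where
  hM := hM
  hull := h
  cov := pc_cover c₁
  comb := H172.combOK_of_A0 hM X Subtype.val_injective (by rw [Subtype.range_coe])
    (by rw [Subtype.range_coe]; exact inter_subset_left) hA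
  rad := H172.rad_of_A0 hM X hA
  cB z _ := by
    rw [cs_true, pc_s12]
  cW z hz := by
    rw [cs_false hz, pc_s12]
  far := hfar

/-- The explored set of `wd` is the one of `H419`. -/
theorem E0X_eq (c₁ c₂ : X → Bool) : E0X M X (cw M c₁ c₂) =
    H419.E0 M X (pc Subtype.val true c₁) (pc Subtype.val false c₁) (pc Subtype.val true c₂)
      (pc Subtype.val false c₂) := E0X_s12 c₁ c₂

theorem EJX_eq (K : Set ℕ) (J : Set ℂ) (c₁ c₂ : X → Bool) : EJX M X K J (cw M c₁ c₂) =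
    EK M X (pc Subtype.val true c₁) (pc Subtype.val false c₁) (pc Subtype.val true c₂)
      (pc Subtype.val false c₂) K J := EJX_s12 K J c₁ c₂

end comb

/-! ### world 0 -/

theorem nsup_le_norm (z : ℂ) : nsup z ≤ ‖z‖ :=
  max_le (Complex.abs_re_le_norm z) (Complex.abs_im_le_norm z)

theorem ctr_nsup {X : Set ℂ} (hX : (X ∩ ball (0 : ℂ) (1 / 2)).Nonempty) (M : ℕ) :
    nsup (ctr X) ≤ 1 - ms M / 8 := by
  have h1 : ms M ≤ 1 := ms_le_one
  have h2 := (ctr_mem hX).2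
  rw [mem_ball_zero_iff] at h2
  have h3 := nsup_le_norm (ctr X)
  linarith

section world

variable {M : ℕ} {X : Set ℂ} {b : ZMod 3 → ℂ} {Bl₁ Wh₁ Bl₂ Wh₂ : Set ℂ} {s : ℂ → Bool}

/-- **The facts of world 0** (`w` : the world, `E` : the explored set, `s` : the colours). -/
structure WD (M : ℕ) (X : Set ℂ) (b : ZMod 3 → ℂ) (s : ℂ → Bool) (E B : Set ℂ) : Prop where
  B_eq : B = X \ fr X E
  E_sub : E ⊆ B
  B_sub : B ⊆ X
  E_nsup : ∀ z ∈ E, 1 - ms M / 8 < nsup z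
  hull : ∀ j, b j ∈ B
  ball_free : ∀ r : ℝ, r ≤ 1 - ms M / 8 → ∀ z ∈ X, z ∈ ball (0 : ℂ) r → z ∉ B
  free_nsup : ∀ z ∈ X, z ∉ B → nsup z < 1 + 5 * ms M / 8
  free_conn : ∀ x ∈ X, x ∉ B → ∀ y ∈ X, y ∉ B →
    ReflTransGen (fun u v => nbr X u v ∧ u ∉ B ∧ v ∉ B) x y
  bdry : ∀ u v, u ∉ B → nbr X u v → v ∈ B → v ∈ E ∧ s v = true
  conn_I : ConnIn X (X \ B)
  conn_B : ConnIn X B

variable (hC : Col M X b Bl₁ Wh₁ Bl₂ Wh₂ s)
include hC

/-- The world of a comb configuration is genuine. -/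
theorem wc_of_col (hX : (X ∩ ball (0 : ℂ) (1 / 2)).Nonempty) :
    WC X (H419.E0 M X Bl₁ Wh₁ Bl₂ Wh₂) := by
  obtain ⟨df, Pf, Qf, P, Q, γ, ρ, dir, hW, -⟩ := hC.exists_W1 ⟨b 0, hC.hull.mem 0⟩
  have h1 : ms M ≤ 1 := ms_le_one
  refine ⟨hW.fw.conn_B (ctr X), ?_, hW.fw.ball_sub (by linarith) ⟨(ctr_mem hX).1, ?_⟩⟩
  · obtain ⟨z, hz⟩ := hW.fw.E0_nonempty
    exact ⟨z, H678.EJ_sub_X hz, fun h => (comp_subset _ _ _ h).2 hz⟩
  · have h2 := (ctr_mem hX).2
    rw [mem_ball] at h2 ⊢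
    linarith

/-- **The facts of world 0.** -/
theorem wd_facts (hX : (X ∩ ball (0 : ℂ) (1 / 2)).Nonempty) :
    WD M X b s (H419.E0 M X Bl₁ Wh₁ Bl₂ Wh₂) (wrd hC.hull (H419.E0 M X Bl₁ Wh₁ Bl₂ Wh₂)).B := by
  obtain ⟨df, Pf, Qf, P, Q, γ, ρ, dir, hW, -⟩ := hC.exists_W1 ⟨b 0, hC.hull.mem 0⟩
  have hwc := wc_of_col hC hX
  have hms := ms_pos hC.hM
  have h1 : ms M ≤ 1 := ms_le_one
  set E := H419.E0 M X Bl₁ Wh₁ Bl₂ Wh₂ with hE
  have hfr : fr X E = H419.I0 M X Bl₁ Wh₁ Bl₂ Wh₂ (ctr X) := rfl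
  have hB : (wrd hC.hull E).B = X \ fr X E := wrd_B hwc
  rw [hB]
  have hfree : ∀ z ∈ X, z ∉ X \ fr X E → z ∈ fr X E := by
    intro z hz hz2
    by_contra h3
    exact hz2 ⟨hz, h3⟩
  have hns : ∀ z ∈ fr X E, nsup z < 1 + 5 * ms M / 8 := by
    intro z hz
    exact hW.fw.I0_nsup (ctr_nsup hX M) hz
  have hcI : ConnIn X (fr X E) := H592.connIn_comp sdiff_subset _
  refine
    { B_eq := rfl
      E_sub := fun z hz => ⟨H678.EJ_sub_X hz, fun h => (comp_subset _ _ _ h).2 hz⟩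
      B_sub := sdiff_subset
      E_nsup := fun z hz => hW.fw.E0_nsup hz
      hull := fun j => ⟨hC.hull.mem j, fun hj => ?_⟩
      ball_free := fun r hr z hz hzr hB => ?_
      free_nsup := fun z hz hzB => hns z (hfree z hz hzB)
      free_conn := fun x hx hxB y hy hyB => ?_
      bdry := fun u v hu huv hv => ?_
      conn_I := ?_
      conn_B := hwc.1 }
  · have := hns _ hj
    have := hC.far j
    linarith
  · have h5 : z ∈ fr X E := by
      by_cases hr2 : 1 / 2 ≤ r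
      · exact hW.fw.ball_sub hr ⟨(ctr_mem hX).1, ball_subset_ball hr2 (ctr_mem hX).2⟩ ⟨hz, hzr⟩
      · exact hwc.2.2 ⟨hz, ball_subset_ball (by linarith) hzr⟩
    exact hB.2 h5
  · exact ReflTransGen.mono (fun u v huv =>
      ⟨huv.1, fun h => h.2 huv.2.1, fun h => h.2 huv.2.2⟩) _ _
      (hcI.2 x (hfree x hx hxB) y (hfree y hy hyB))
  · have hu' : u ∈ fr X E := hfree u huv.1 hu
    have hv' : v ∉ fr X E := hv.2
    exact hC.bdry hu' huv hv' (by have := hns u hu'; linarith)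
  · have h6 : X \ (X \ fr X E) = fr X E := by
      ext z
      exact ⟨fun hz => hfree z hz.1 hz.2, fun hz => ⟨fr_sub hz, fun h => h.2 hz⟩⟩
    rw [h6]
    exact hcI

/-- **The ring of feet, truly oriented**, with its times, for every admissible choice of the
feet. -/
theorem exists_W1_id {i₀ : ℂ} (hi₀ : i₀ ∈ X) (hin : nsup i₀ ≤ 1 - ms M / 8) (x₀ : X)
    {d : ℕ → Fc X b × ZMod 3} (hdp : ∀ k, d (k + nc M) = d k)
    (hd : ∀ k, Foot hC.hull x₀ M Bl₁ Wh₁ s k (d k)) :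
    ∃ P Q, W1 hC x₀ d P Q P Q (fun k => k) (fun k => k) ∧
      ∃ t, LoopT (HT hC.hull x₀) (fun v => s v.1) (nc M) (d 0) t ∧
        (∀ k, ((HT hC.hull x₀).st (fun v => s v.1))^[t k] (d 0) = d k) ∧
        ∀ k n, t k ≤ n → n < t (k + 1) →
          (HT hC.hull x₀).src (((HT hC.hull x₀).st (fun v => s v.1))^[n] (d 0)) ∈ vs (reg M k) ∧
          (HT hC.hull x₀).tgt (((HT hC.hull x₀).st (fun v => s v.1))^[n] (d 0)) ∈ vs (reg M k) ∧
          (HT hC.hull x₀).apex (((HT hC.hull x₀).st (fun v => s v.1))^[n] (d 0)) ∈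
            vs (reg M k) := by
  obtain ⟨P, Q, h1, h2, t, ht⟩ := H112.comb_loop hC hi₀ hin x₀ hdp hd
  have hb : Rb hC x₀ d P Q (fun k => k) (fun k => k) := ⟨h1, hd⟩
  obtain ⟨g₀, hg⟩ := hC.exists_dart x₀ ⟨b 0, hC.hull.mem 0⟩
  exact ⟨P, Q, ⟨hb, ⟨hb, g₀, hg, fun k => h2 g₀ hg k⟩⟩, t, ht⟩

end world

end Vale.Agent.P148.R2.H678
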