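import Vale.Agent.P148.R2.H678.Br
import Vale.Agent.P148.R2.H291.Site

/-!
# P148, row SCENE: the facts of world 0 for the sites of a configuration

`wfacts_site` : on the good event of the law of the comb, `H592.WFacts` for the explored set `E0X`
of the composite colouring; `wd_site` : the facts `WD` of the world `wd`.
-/

set_option linter.unusedSectionVars false

open Set Relation Metric Function

namespace Vale.Agent.P148.R2.H678

open Vale.Agent.P148.R2.H258 Vale.Agent.P148.R2.H565 Vale.Agent.P148.R2.H419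
open Vale.Agent.P148.R2.N (ms nc gateC gbox cell ms_pos ms_le_one)
open Vale.Agent.P148.R2.H592 (nbr nbr_symm ConnIn HullTri comp comp_subset Fc WFacts)
open Vale.Agent.P148.R2.H995 (nsup)
open Vale.Agent.P148.R2.H566 (W0)
open Vale.Agent.P148.R2.H938 (pc)
open Vale.Agent.P148.R2.H959 (reg)
open Vale.Agent.P148.R2.H172 (cs cs_apply combLaw)
open Vale.Agent.P148.R2.H291 (site bR SiteOK)
open _root_.P148 _root_.P148.H729

section

variable {M : ℕ} {X : Set ℂ} {b : ZMod 3 → ℂ}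

theorem sgX_eq_cs (σ : X → Bool) {z : ℂ} (hz : z ∈ X) :
    sgX X σ z = cs (Subtype.val : X → ℂ) σ z := by
  rw [sgX_eq σ hz, ← cs_val σ ⟨z, hz⟩]

/-- The facts of helper592 from the comb data. -/
theorem wfacts_of_col {Bl₁ Wh₁ Bl₂ Wh₂ : Set ℂ} {s s' : ℂ → Bool}
    (hC : Col M X b Bl₁ Wh₁ Bl₂ Wh₂ s) (hX : (X ∩ ball (0 : ℂ) (1 / 2)).Nonempty) (hM : 2 ≤ M)
    (hs : ∀ z ∈ X, s' z = s z) :
    WFacts (ms M) X (H419.E0 M X Bl₁ Wh₁ Bl₂ Wh₂) (fr X (H419.E0 M X Bl₁ Wh₁ Bl₂ Wh₂)) s' := by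
  have hF := wd_facts hC hX
  have hwc := wc_of_col hC hX
  have hms : 0 < ms M := ms_pos hC.hM
  have h2 : ms M ≤ 1 / 2 := by
    have h3 : (M : ℝ) * ms M = 1 := N.M_mul_ms hC.hM
    have h4 : (2 : ℝ) ≤ M := by exact_mod_cast hM
    nlinarith
  have hfB : ∀ z ∈ fr X (H419.E0 M X Bl₁ Wh₁ Bl₂ Wh₂),
      z ∉ (wrd hC.hull (H419.E0 M X Bl₁ Wh₁ Bl₂ Wh₂)).B := by
    intro z hz hzB
    rw [hF.B_eq] at hzB
    exact hzB.2 hz
  exact
    { a0 := hms
      a1 := h2
      sub := fr_sub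
      near := fun z hz => hF.free_nsup z (fr_sub hz) (hfB z hz)
      conn := hwc.1
      ne := hwc.2.1
      bdry := fun u hu v huv hv => by
        have h5 := hF.bdry u v (hfB u hu) huv (by rw [hF.B_eq]; exact ⟨huv.2.1, hv⟩)
        exact ⟨h5.1, by rw [hs v huv.2.1]; exact h5.2⟩
      core := fun z hz => by
        by_contra h6
        exact hF.ball_free _ le_rfl z hz.1 hz.2 (by rw [hF.B_eq]; exact ⟨hz.1, h6⟩) }

end

section site

variable {M : ℕ} {T : Set Pt} {R s : ℝ} (hS : SiteOK T R s)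
include hS

theorem center_site : (site T R ∩ ball (0 : ℂ) (1 / 2)).Nonempty := by
  obtain ⟨v, hv, hd⟩ := hS.net le_rfl (0 : ℂ) (mem_closedBall_self (by linarith [hS.hR]))
  refine ⟨v, hv, ?_⟩
  rw [mem_ball]
  have h1 := hS.hs1
  have h2 : dist v 0 ≤ s / 8 := by rw [dist_comm]; exact hd
  linarith

theorem far_site (hR : 3 ≤ R) (j : ZMod 3) : 1 + 2 * ms M ≤ nsup (bR R j) := by
  have h1 := hS.far j
  have h2 : ms M ≤ 1 := ms_le_one
  linarith

variable [Fintype (site T R)] {c₁ c₂ : site T R → Bool}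

/-- The comb data for the sites of a configuration. -/
theorem col_site (hR : 3 ≤ R) (hM : 0 < M)
    (hA : (combLaw hM (site T R) (Subtype.val : site T R → ℂ)).A0 c₁ c₂) :
    Col M (site T R) (bR R) (pc Subtype.val true c₁) (pc Subtype.val false c₁)
      (pc Subtype.val true c₂) (pc Subtype.val false c₂) (cs Subtype.val (cw M c₁ c₂)) :=
  col_of_A0 hM hS.hull (far_site hS hR) hA

/-- **The facts of helper592 for the explored set of the composite colouring.** -/
theorem wfacts_site (hR : 3 ≤ R) (hM0 : 0 < M) (hM : 2 ≤ M)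
    (hA : (combLaw hM0 (site T R) (Subtype.val : site T R → ℂ)).A0 c₁ c₂) :
    WFacts (ms M) (site T R) (E0X M (site T R) (cw M c₁ c₂))
      (fr (site T R) (E0X M (site T R) (cw M c₁ c₂))) (sgX (site T R) (cw M c₁ c₂)) := by
  rw [E0X_eq]
  exact wfacts_of_col (col_site hS hR hM0 hA) (center_site hS) hM fun z hz => sgX_eq_cs _ hz

theorem wc_site (hR : 3 ≤ R) (hM : 0 < M)
    (hA : (combLaw hM (site T R) (Subtype.val : site T R → ℂ)).A0 c₁ c₂) :
    WC (site T R) (E0X M (site T R) (cw M c₁ c₂)) := by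
  rw [E0X_eq]
  exact wc_of_col (col_site hS hR hM hA) (center_site hS)

/-- **The facts of the world `wd`.** -/
theorem wd_site (hR : 3 ≤ R) (hM : 0 < M)
    (hA : (combLaw hM (site T R) (Subtype.val : site T R → ℂ)).A0 c₁ c₂) :
    WD M (site T R) (bR R) (cs Subtype.val (cw M c₁ c₂)) (E0X M (site T R) (cw M c₁ c₂))
      (wd hS.hull M (cw M c₁ c₂)).B := by
  unfold wd
  rw [E0X_eq]
  exact wd_facts (col_site hS hR hM hA) (center_site hS)

end site

end Vale.Agent.P148.R2.H678
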