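import Vale.Agent.P148.R2.H678.Link
import Vale.Agent.P148.R2.H995.CombRad

/-!
# P148, row N1 (comb gates): the links of the comb in the mixed colouring

The explored hubs of different gates are separated, the corridors only meet the hubs which they join.
Hence the tooth, the rails and the radial corridor contain links between the rims whose inner points
are not explored; in the mixed colouring they have the colour of the second colouring.
-/

open Set Relation Metric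

namespace Vale.Agent.P148.R2.H678

open Vale.Agent.P148.R2.N (ms nc gateC gbox cell)
open Vale.Agent.P148.R2.H592 (nbr nbr_symm ConnIn)
open Vale.Agent.P148.R2.H995 (nsup Circ Chain prad)

variable {M : ℕ} {X Bl₁ Wh₁ Bl₂ Wh₂ : Set ℂ} {k : ℕ}

/-- The radial corridor: a white crossing from the outer hub to the outside of the ring. -/
def Rad (M : ℕ) (X Wh : Set ℂ) (k : ℕ) : Prop := CCr M X Wh (pout M k) (prad M k)

/-- All hubs stay in their boxes. -/
def HubsGood (M : ℕ) (X Bl Wh : Set ℂ) : Prop :=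
  ∀ k < nc M, InGood M X Wh k ∧ OutGood M X Bl k

/-! ### periodicity -/

theorem nc_pos (M : ℕ) : 0 < nc M := by unfold nc; positivity

theorem mod_nc_lt (M k : ℕ) : k % nc M < nc M := Nat.mod_lt _ (nc_pos M)

theorem inHub_mod (k : ℕ) : inHub M X Wh₁ (k % nc M) = inHub M X Wh₁ k := by
  unfold inHub; rw [H995.pin_mod]

theorem outHub_mod (k : ℕ) : outHub M X Bl₁ (k % nc M) = outHub M X Bl₁ k := by
  unfold outHub; rw [H995.pout_mod]

theorem inRim_mod (k : ℕ) : inRim M X Wh₁ (k % nc M) = inRim M X Wh₁ k := by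
  unfold inRim; rw [H995.pin_mod]

theorem outRim_mod (k : ℕ) : outRim M X Bl₁ (k % nc M) = outRim M X Bl₁ k := by
  unfold outRim; rw [H995.pout_mod]

theorem mem_Ex {v : ℂ} : v ∈ Ex M X Bl₁ Wh₁ ↔
    ∃ k < nc M, v ∈ inHub M X Wh₁ k ∨ v ∈ outHub M X Bl₁ k := by
  unfold Ex
  rw [mem_iUnion]
  constructor
  · rintro ⟨k, hk⟩
    refine ⟨k % nc M, mod_nc_lt M k, ?_⟩
    rw [inHub_mod, outHub_mod]
    exact hk
  · rintro ⟨k, -, hk⟩
    exact ⟨k, hk⟩

theorem HubsGood.inSub (h : HubsGood M X Bl₁ Wh₁) (k : ℕ) :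
    inHub M X Wh₁ k ⊆ hbox M (pin M k) := by
  rw [← inHub_mod, ← H995.pin_mod]
  exact (h _ (mod_nc_lt M k)).1

theorem HubsGood.outSub (h : HubsGood M X Bl₁ Wh₁) (k : ℕ) :
    outHub M X Bl₁ k ⊆ hbox M (pout M k) := by
  rw [← outHub_mod, ← H995.pout_mod]
  exact (h _ (mod_nc_lt M k)).2

/-! ### separation -/

theorem HubsGood.disj_in_out (hM : 0 < M) (h : HubsGood M X Bl₁ Wh₁) (k : ℕ) :
    Disjoint (inHub M X Wh₁ k) (outHub M X Bl₁ k) :=
  (H995.hbox_disj hM k).mono (h.inSub k) (h.outSub k)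

theorem succ_mod_ne (hM : 0 < M) (k : ℕ) : k % nc M ≠ (k + 1) % nc M := by
  intro h
  have h1 : 4 ≤ nc M := by unfold nc; omega
  have h2 := Nat.mod_lt k (nc_pos M)
  rcases Nat.lt_or_ge (k % nc M + 1) (nc M) with h3 | h3
  · have h4 : (k + 1) % nc M = k % nc M + 1 := by
      rw [Nat.add_mod, Nat.mod_eq_of_lt (show 1 < nc M by omega), Nat.mod_eq_of_lt h3]
    omega
  · have h5 : k % nc M + 1 = nc M := by omega
    have h4 : (k + 1) % nc M = 0 := by
      rw [Nat.add_mod, Nat.mod_eq_of_lt (show 1 < nc M by omega), h5, Nat.mod_self]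
    omega

theorem disj_pin_pin (hM : 0 < M) {k l : ℕ} (h : k % nc M ≠ l % nc M) :
    Disjoint (hbox M (pin M k)) (hbox M (pin M l)) := by
  rw [← H995.pin_mod M k, ← H995.pin_mod M l]
  exact (H995.hboxes_disj hM (mod_nc_lt M k) (mod_nc_lt M l) h).mono subset_union_left
    subset_union_left

theorem disj_pout_pout (hM : 0 < M) {k l : ℕ} (h : k % nc M ≠ l % nc M) :
    Disjoint (hbox M (pout M k)) (hbox M (pout M l)) := by
  rw [← H995.pout_mod M k, ← H995.pout_mod M l]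
  exact (H995.hboxes_disj hM (mod_nc_lt M k) (mod_nc_lt M l) h).mono subset_union_right
    subset_union_right

theorem HubsGood.disj_in_in (hM : 0 < M) (h : HubsGood M X Bl₁ Wh₁) (k : ℕ) :
    Disjoint (inHub M X Wh₁ k) (inHub M X Wh₁ (k + 1)) :=
  (disj_pin_pin hM (succ_mod_ne hM k)).mono (h.inSub k) (h.inSub _)

theorem HubsGood.disj_out_out (hM : 0 < M) (h : HubsGood M X Bl₁ Wh₁) (k : ℕ) :
    Disjoint (outHub M X Bl₁ k) (outHub M X Bl₁ (k + 1)) :=
  (disj_pout_pout hM (succ_mod_ne hM k)).mono (h.outSub k) (h.outSub _)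

/-! ### the corridors and the explored points -/

theorem pin_succ_mod (M k : ℕ) : pin M (k % nc M + 1) = pin M (k + 1) := by
  rw [← H995.pin_mod M (k % nc M + 1), ← H995.pin_mod M (k + 1), Nat.mod_add_mod]

theorem pout_succ_mod (M k : ℕ) : pout M (k % nc M + 1) = pout M (k + 1) := by
  rw [← H995.pout_mod M (k % nc M + 1), ← H995.pout_mod M (k + 1), Nat.mod_add_mod]

/-- An explored point in the tooth corridor belongs to one of the two hubs of the gate. -/
theorem HubsGood.tooth_Ex (hM : 0 < M) (h : HubsGood M X Bl₁ Wh₁) (k : ℕ) {v : ℂ}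
    (hv : v ∈ CBox M (pin M k) (pout M k)) (hE : v ∈ Ex M X Bl₁ Wh₁) :
    v ∈ inHub M X Wh₁ k ∨ v ∈ outHub M X Bl₁ k := by
  rw [← inHub_mod, ← outHub_mod]
  rw [← H995.pin_mod, ← H995.pout_mod] at hv
  obtain ⟨l, hl, hvl⟩ := mem_Ex.1 hE
  by_cases hkl : k % nc M = l
  · rw [hkl]; exact hvl
  · have h1 := H995.tooth_hbox_disj hM (mod_nc_lt M k) hl hkl
    rcases hvl with h2 | h2
    · exact absurd (Or.inl (h.inSub l h2)) (Set.disjoint_left.1 h1 hv)
    · exact absurd (Or.inr (h.outSub l h2)) (Set.disjoint_left.1 h1 hv)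

/-- An explored point in an inner rail corridor belongs to one of its two hubs. -/
theorem HubsGood.low_Ex (hM : 0 < M) (h : HubsGood M X Bl₁ Wh₁) (k : ℕ) {v : ℂ}
    (hv : v ∈ CBox M (pin M k) (pin M (k + 1))) (hE : v ∈ Ex M X Bl₁ Wh₁) :
    v ∈ inHub M X Wh₁ k ∨ v ∈ inHub M X Wh₁ (k + 1) := by
  obtain ⟨l, hl, hvl⟩ := mem_Ex.1 hE
  rw [← H995.pin_mod M k, ← pin_succ_mod] at hv
  rcases hvl with h2 | h2
  · by_cases h3 : l = k % nc M
    · left; rw [h3, inHub_mod] at h2; exact h2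
    by_cases h4 : l = (k % nc M + 1) % nc M
    · right
      rw [h4, inHub_mod] at h2
      rw [← inHub_mod, Nat.mod_add_mod, inHub_mod] at h2
      exact h2
    exact absurd (Or.inl (h.inSub l h2))
      (Set.disjoint_left.1 (H995.rail_hbox_disj hM (mod_nc_lt M k) hl h3 h4) (Or.inl hv))
  · exact absurd (h.outSub l h2)
      (Set.disjoint_left.1 (H995.railin_hout_disj hM (mod_nc_lt M k) hl) hv)

/-- An explored point in an outer rail corridor belongs to one of its two hubs. -/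
theorem HubsGood.up_Ex (hM : 0 < M) (h : HubsGood M X Bl₁ Wh₁) (k : ℕ) {v : ℂ}
    (hv : v ∈ CBox M (pout M k) (pout M (k + 1))) (hE : v ∈ Ex M X Bl₁ Wh₁) :
    v ∈ outHub M X Bl₁ k ∨ v ∈ outHub M X Bl₁ (k + 1) := by
  obtain ⟨l, hl, hvl⟩ := mem_Ex.1 hE
  rw [← H995.pout_mod M k, ← pout_succ_mod] at hv
  rcases hvl with h2 | h2
  · exact absurd (h.inSub l h2)
      (Set.disjoint_left.1 (H995.railout_hin_disj hM (mod_nc_lt M k) hl) hv)
  · by_cases h3 : l = k % nc M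
    · left; rw [h3, outHub_mod] at h2; exact h2
    by_cases h4 : l = (k % nc M + 1) % nc M
    · right
      rw [h4, outHub_mod] at h2
      rw [← outHub_mod, Nat.mod_add_mod, outHub_mod] at h2
      exact h2
    exact absurd (Or.inr (h.outSub l h2))
      (Set.disjoint_left.1 (H995.rail_hbox_disj hM (mod_nc_lt M k) hl h3 h4) (Or.inr hv))

/-- An explored point in a radial corridor belongs to its outer hub. -/
theorem HubsGood.rad_Ex (hM : 0 < M) (h : HubsGood M X Bl₁ Wh₁) (k : ℕ) {v : ℂ}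
    (hv : v ∈ CBox M (pout M k) (prad M k)) (hE : v ∈ Ex M X Bl₁ Wh₁) :
    v ∈ outHub M X Bl₁ k := by
  obtain ⟨l, hl, hvl⟩ := mem_Ex.1 hE
  rw [← H995.pout_mod, ← H995.prad_mod] at hv
  rcases hvl with h2 | h2
  · exact absurd (h.inSub l h2)
      (Set.disjoint_left.1 (H995.rad_hin_disj hM (mod_nc_lt M k) hl) hv)
  · by_cases hkl : k % nc M = l
    · rw [← hkl, outHub_mod] at h2; exact h2
    · exact absurd (h.outSub l h2)
        (Set.disjoint_left.1 (H995.rad_hout_disj hM (mod_nc_lt M k) hl hkl) hv)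

/-! ### colours in the mixed colouring -/

theorem inRim_sub_Ex (k : ℕ) : inRim M X Wh₁ k ⊆ Ex M X Bl₁ Wh₁ := fun _ hv =>
  mem_iUnion.2 ⟨k, Or.inl hv.1⟩

theorem outRim_sub_Ex (k : ℕ) : outRim M X Bl₁ k ⊆ Ex M X Bl₁ Wh₁ := fun _ hv =>
  mem_iUnion.2 ⟨k, Or.inr hv.1⟩

theorem Ex_sub : Ex M X Bl₁ Wh₁ ⊆ X := by
  refine iUnion_subset fun k => union_subset ?_ ?_
  · exact hub_sub_X
  · exact hub_sub_X

/-- The inner rims are black. -/
theorem inRim_black (hX : X ⊆ Bl₁ ∪ Wh₁) (k : ℕ) :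
    inRim M X Wh₁ k ⊆ mix (Ex M X Bl₁ Wh₁) Bl₁ Bl₂ := by
  intro v hv
  have h1 : v ∈ Ex M X Bl₁ Wh₁ := inRim_sub_Ex k hv
  rw [mem_mix_of_mem h1]
  rcases hX (Ex_sub h1) with h2 | h2
  · exact h2
  · exact absurd h2 (rim_not hv)

/-- The outer rims are white. -/
theorem outRim_white (hX : X ⊆ Bl₁ ∪ Wh₁) (k : ℕ) :
    outRim M X Bl₁ k ⊆ mix (Ex M X Bl₁ Wh₁) Wh₁ Wh₂ := by
  intro v hv
  have h1 : v ∈ Ex M X Bl₁ Wh₁ := outRim_sub_Ex k hv
  rw [mem_mix_of_mem h1]
  rcases hX (Ex_sub h1) with h2 | h2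
  · exact absurd h2 (rim_not hv)
  · exact h2

/-! ### the links -/

/-- The tooth contains a link from the inner rim to the outer rim. -/
theorem HubsGood.tooth_link (hM : 0 < M) (h : HubsGood M X Bl₁ Wh₁) (hW : Wh₂ ⊆ X)
    (ht : Tooth M X Wh₂ k) :
    Link X (Ex M X Bl₁ Wh₁) Wh₂ (inRim M X Wh₁ k) (outRim M X Bl₁ k)
      (CBox M (pin M k) (pout M k)) :=
  link_of_ccr ht (fun _ h1 h2 => H995.start_mem hM (H995.pin_ne_pout hM k) h1 h2)
    (fun _ h1 h2 => H995.end_mem hM (H995.pin_ne_pout hM k) h1 h2) hW (h.disj_in_out hM k)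
    (fun _ h1 h2 => h.tooth_Ex hM k h1 h2)

/-- The black rail contains a link between the inner rims. -/
theorem HubsGood.low_link (hM : 0 < M) (h : HubsGood M X Bl₁ Wh₁) (hB : Bl₂ ⊆ X)
    (ht : Rails M X Bl₂ Wh₂ k) :
    Link X (Ex M X Bl₁ Wh₁) Bl₂ (inRim M X Wh₁ k) (inRim M X Wh₁ (k + 1))
      (CBox M (pin M k) (pin M (k + 1))) :=
  link_of_ccr ht.1 (fun _ h1 h2 => H995.start_mem hM (H995.pin_ne_succ hM k) h1 h2)
    (fun _ h1 h2 => H995.end_mem hM (H995.pin_ne_succ hM k) h1 h2) hB (h.disj_in_in hM k)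
    (fun _ h1 h2 => h.low_Ex hM k h1 h2)

/-- The white rail contains a link between the outer rims. -/
theorem HubsGood.up_link (hM : 0 < M) (h : HubsGood M X Bl₁ Wh₁) (hW : Wh₂ ⊆ X)
    (ht : Rails M X Bl₂ Wh₂ k) :
    Link X (Ex M X Bl₁ Wh₁) Wh₂ (outRim M X Bl₁ k) (outRim M X Bl₁ (k + 1))
      (CBox M (pout M k) (pout M (k + 1))) :=
  link_of_ccr ht.2 (fun _ h1 h2 => H995.start_mem hM (H995.pout_ne_succ hM k) h1 h2)
    (fun _ h1 h2 => H995.end_mem hM (H995.pout_ne_succ hM k) h1 h2) hW (h.disj_out_out hM k)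
    (fun _ h1 h2 => h.up_Ex hM k h1 h2)

/-- The radial corridor contains a path from the outer rim to the outside of the ring. -/
theorem HubsGood.rad_link (hM : 0 < M) (h : HubsGood M X Bl₁ Wh₁) (hW : Wh₂ ⊆ X)
    (ht : Rad M X Wh₂ k) :
    ∃ (n : ℕ) (v : ℕ → ℂ), 0 < n ∧ (∀ i < n, nbr X (v i) (v (i + 1))) ∧
      v 0 ∈ outRim M X Bl₁ k ∧ 1 + 2 * ms M < nsup (v n) ∧
      (∀ i, 0 < i → i ≤ n → v i ∈ Wh₂ ∧ v i ∉ Ex M X Bl₁ Wh₁) ∧
      ∀ i ≤ n, v i ∈ CBox M (pout M k) (prad M k) := by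
  obtain ⟨n, v, a1, a2, a3, a4⟩ := ht
  have hB : ∀ i ≤ n, v i ∈ CBox M (pout M k) (prad M k) := fun i hi => (a2 i hi).2
  have h0 : v 0 ∈ outHub M X Bl₁ k :=
    core_sub_hub (seed_core ⟨hW (a2 0 (Nat.zero_le n)).1,
      H995.start_mem hM (H995.pout_ne_prad hM k) (hB 0 (Nat.zero_le n)) a3⟩)
  have hn1 : 1 + 2 * ms M < nsup (v n) :=
    H995.prad_seed hM (H995.end_mem hM (H995.pout_ne_prad hM k) (hB n le_rfl) a4)
  have hms := N.ms_pos hM
  have hn : v n ∉ outHub M X Bl₁ k := by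
    intro hc
    -- the hub is in the gate box
    have h1 := h.outSub k hc
    have h2 : nsup (v n - pout M k) ≤ hb M := h1
    have h3 : nsup (v n - prad M k) < sd M :=
      nsup_lt_of_ball (H995.end_mem hM (H995.pout_ne_prad hM k) (hB n le_rfl) a4)
    have h4 : ‖prad M k - pout M k‖ = 2 * ms M := H995.norm_rad hM k
    have h5 : ‖v n - pout M k‖ ≤ 2 * hb M := by
      refine (Complex.norm_le_abs_re_add_abs_im _).trans ?_
      have h6 := (max_le_iff.1 h2)
      linarith [h6.1, h6.2]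
    have h6 : ‖v n - prad M k‖ ≤ 2 * sd M := by
      refine (Complex.norm_le_abs_re_add_abs_im _).trans ?_
      have h7 := (max_lt_iff.1 h3)
      linarith [h7.1, h7.2]
    have h7 : prad M k - pout M k = (v n - pout M k) - (v n - prad M k) := by ring
    have h8 : ‖prad M k - pout M k‖ ≤ 2 * hb M + 2 * sd M := by
      rw [h7]
      exact (norm_sub_le _ _).trans (add_le_add h5 h6)
    rw [h4] at h8
    unfold hb sd at h8
    linarith
  obtain ⟨a, ha, ha1, ha2⟩ := exit_path (r := nbr X) a1 h0 hn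
  refine ⟨n - a, fun i => v (a + i), by omega, fun i hi => a1 (a + i) (by omega), ha1, ?_, ?_, ?_⟩
  · simp only [show a + (n - a) = n by omega]
    exact hn1
  · intro i hi hin
    refine ⟨(a2 (a + i) (by omega)).1, fun hc => ?_⟩
    exact ha2 (a + i) (by omega) (by omega) (h.rad_Ex hM k (hB (a + i) (by omega)) hc)
  · intro i hi
    exact hB _ (by omega)

end Vale.Agent.P148.R2.H678
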