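import Vale.Agent.P148.R2.N.Geo
import Vale.Agent.P148.R2.H995.Circ2

/-!
# P148, row N1 (comb gates): definitions

Gates with two explored hubs (an inner, black one and an outer, white one) and a white tooth between
them; sections with a black rail between the inner hubs and a white rail between the outer hubs of
two consecutive gates.
-/

open Set Relation Metric

namespace Vale.Agent.P148.R2.H678

open Vale.Agent.P148.R2.N (ms nc gateC gbox cell)
open Vale.Agent.P148.R2.H592 (nbr)
open Vale.Agent.P148.R2.H995 (nsup TCr Box)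

/-! ### hubs: explored sets of the cluster of a seed -/

section Hub

variable {α : Type*} (r : α → α → Prop) (S C : Set α)

/-- The core: the seeds and the points of `C` joined to a seed through points of `C`. -/
def core : Set α := {v | ∃ s ∈ S, ReflTransGen (fun a b => r a b ∧ b ∈ C) s v}

/-- The hub (explored set): the core and its neighbours. -/
def hub : Set α := core r S C ∪ {v | ∃ u ∈ core r S C, r u v}

/-- The rim: the points of the hub which are not in the core (they are not in `C`). -/
def rim : Set α := hub r S C \ core r S C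

end Hub

/-- The colouring which is `W₁` on `E` and `W₂` off `E` (sets of black points). -/
def mix {α : Type*} (E W₁ W₂ : Set α) : Set α := (W₁ ∩ E) ∪ (W₂ \ E)

/-! ### the layout of a gate -/

/-- The outward unit vector at the gate `k`. -/
noncomputable def uo (M k : ℕ) : ℂ := Complex.I ^ (k / (2 * M + 1))

/-- The centre of the inner (black) hub of the gate `k`. -/
noncomputable def pin (M k : ℕ) : ℂ := gateC M k - uo M k * ((ms M / 16 : ℝ) : ℂ)

/-- The centre of the outer (white) hub of the gate `k`. -/
noncomputable def pout (M k : ℕ) : ℂ := gateC M k + uo M k * ((ms M / 16 : ℝ) : ℂ)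

/-- Radius of the seeds. -/
noncomputable def sd (M : ℕ) : ℝ := ms M / 256

/-- Half side of the boxes of the hubs. -/
noncomputable def hb (M : ℕ) : ℝ := ms M / 32

/-- The box of a hub (closed square). -/
def hbox (M : ℕ) (z : ℂ) : Set ℂ := {w | nsup (w - z) ≤ hb M}

/-- The explored inner hub of the gate `k` (`Wh` = white points). -/
def inHub (M : ℕ) (X Wh : Set ℂ) (k : ℕ) : Set ℂ := hub (nbr X) (X ∩ ball (pin M k) (sd M)) Wh

/-- The explored outer hub of the gate `k` (`Bl` = black points). -/
def outHub (M : ℕ) (X Bl : Set ℂ) (k : ℕ) : Set ℂ := hub (nbr X) (X ∩ ball (pout M k) (sd M)) Bl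

/-- The black rim of the inner hub. -/
def inRim (M : ℕ) (X Wh : Set ℂ) (k : ℕ) : Set ℂ := rim (nbr X) (X ∩ ball (pin M k) (sd M)) Wh

/-- The white rim of the outer hub. -/
def outRim (M : ℕ) (X Bl : Set ℂ) (k : ℕ) : Set ℂ := rim (nbr X) (X ∩ ball (pout M k) (sd M)) Bl

/-- All explored points. -/
def Ex (M : ℕ) (X Bl Wh : Set ℂ) : Set ℂ := ⋃ k, inHub M X Wh k ∪ outHub M X Bl k

/-! ### corridors -/

/-- The turn of the frame of the segment from `z` to `z'`. -/
noncomputable def cio (z z' : ℂ) : ℂ := (starRingEnd ℂ) (z' - z) / (‖z' - z‖ : ℂ)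

/-- The box of the corridor from `z` to `z'`. -/
def CBox (M : ℕ) (z z' : ℂ) : Set ℂ :=
  Box (cio z z') z (sd M / 2) (‖z' - z‖ - sd M / 2) (-(sd M / 8)) (sd M / 8) (sd M / 8)

/-- A crossing of the corridor from `z` to `z'`, by a path of points of `W`. -/
def CCr (M : ℕ) (X W : Set ℂ) (z z' : ℂ) : Prop :=
  TCr X W (cio z z') z (sd M / 2) (‖z' - z‖ - sd M / 2) (-(sd M / 8)) (sd M / 8) (sd M / 8)

/-! ### the events -/

/-- The inner hub stays in its box. -/
def InGood (M : ℕ) (X Wh : Set ℂ) (k : ℕ) : Prop := inHub M X Wh k ⊆ hbox M (pin M k)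

/-- The outer hub stays in its box. -/
def OutGood (M : ℕ) (X Bl : Set ℂ) (k : ℕ) : Prop := outHub M X Bl k ⊆ hbox M (pout M k)

/-- The tooth: a white crossing between the two hubs of the gate `k`. -/
def Tooth (M : ℕ) (X Wh : Set ℂ) (k : ℕ) : Prop := CCr M X Wh (pin M k) (pout M k)

/-- The rails: a black crossing between the inner hubs, a white one between the outer hubs of the
gates `k` and `k + 1`. -/
def Rails (M : ℕ) (X Bl Wh : Set ℂ) (k : ℕ) : Prop :=
  CCr M X Bl (pin M k) (pin M (k + 1)) ∧ CCr M X Wh (pout M k) (pout M (k + 1))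

/-- The gate event: hubs explored in the first colouring, tooth in the second one. -/
def GateEv (M : ℕ) (X Bl₁ Wh₁ Wh₂ : Set ℂ) (k : ℕ) : Prop :=
  InGood M X Wh₁ k ∧ OutGood M X Bl₁ k ∧ Tooth M X Wh₂ k

end Vale.Agent.P148.R2.H678
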