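import Vale.Agent.P148.R2.H678.Cl
import Vale.Agent.P148.R2.H592.Dom1
import Vale.Agent.P148.R2.H592.Wld
import Vale.Agent.P148.R2.H838.Law
import Vale.Agent.P148.R2.H172.N3c

/-!
# P148, rows WLD / OMEGA: the total family of worlds

`E0X M X σ` : the explored set of world 0 as a function of the composite colouring `σ` of the sites
(`true` = black). `wrd h E` : world 0 with the free region `fr X E` (component of the centre off
`E`); a fixed dummy if the frozen set is not connected. `wd h M σ = wrd h (E0X M X σ)`.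
-/

open Set Relation Metric

namespace Vale.Agent.P148.R2.H678

open Vale.Agent.P148.R2.N (ms nc gateC gbox cell ms_pos)
open Vale.Agent.P148.R2.H592 (nbr nbr_symm ConnIn HullTri comp comp_subset connIn_singleton WFacts
  connIn_compl_comp)
open Vale.Agent.P148.R2.H995 (nsup)
open Vale.Agent.P148.R2.H566 (W0)
open Vale.Agent.P148.R2.H953 (IsStop Agree glue agree_glue)
open Vale.Agent.P148.R2.H938 (pc)

/-! ### the centre and the free region -/

open Classical in
/-- A site near `0`. -/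
noncomputable def ctr (X : Set ℂ) : ℂ :=
  if h : ∃ u, u ∈ X ∩ ball (0 : ℂ) (1 / 2) then h.choose else 0

theorem ctr_mem {X : Set ℂ} (h : (X ∩ ball (0 : ℂ) (1 / 2)).Nonempty) :
    ctr X ∈ X ∩ ball (0 : ℂ) (1 / 2) := by
  have h' : ∃ u, u ∈ X ∩ ball (0 : ℂ) (1 / 2) := h
  unfold ctr
  rw [dif_pos h']
  exact h'.choose_spec

/-- The free region: the component of the centre off the explored set. -/
noncomputable def fr (X E : Set ℂ) : Set ℂ := comp X (X \ E) (ctr X)

variable {X E E' : Set ℂ} {b : ZMod 3 → ℂ} {M : ℕ}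

theorem fr_sub : fr X E ⊆ X := (comp_subset _ _ _).trans sdiff_subset

theorem fr_not_mem {z : ℂ} (hz : z ∈ fr X E) : z ∉ E := (comp_subset _ _ _ hz).2

/-- The free region does not depend on the choice of the centre. -/
theorem fr_eq {i₀ : ℂ} (hi : i₀ ∈ fr X E) : fr X E = comp X (X \ E) i₀ := by
  apply Subset.antisymm
  · exact fun z hz => ⟨hz.1, (H592.symm_in hi.2).trans hz.2⟩
  · exact fun z hz => ⟨hz.1, hi.2.trans hz.2⟩

theorem mem_fr_of_ball (h : (X ∩ ball (0 : ℂ) (1 / 2)).Nonempty)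
    (hE : ∀ z ∈ E, z ∉ ball (0 : ℂ) (1 / 2)) : ctr X ∈ fr X E :=
  ⟨⟨(ctr_mem h).1, fun hc => hE _ hc (ctr_mem h).2⟩, ReflTransGen.refl⟩

/-- The condition for a genuine world. -/
def WC (X E : Set ℂ) : Prop :=
  ConnIn X (X \ fr X E) ∧ (X \ fr X E).Nonempty ∧ X ∩ ball (0 : ℂ) (3 / 4) ⊆ fr X E

open Classical in
/-- The frozen set: the complement of the free region, or `b 0` alone in the dummy case. -/
noncomputable def bw (X : Set ℂ) (b : ZMod 3 → ℂ) (E : Set ℂ) : Set ℂ :=
  if WC X E then X \ fr X E else {b 0}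

theorem bw_of_WC (hc : WC X E) : bw X b E = X \ fr X E := if_pos hc

theorem bw_of_not (hc : ¬ WC X E) : bw X b E = {b 0} := if_neg hc

theorem bw_conn (h : HullTri X b) (E : Set ℂ) : ConnIn X (bw X b E) := by
  by_cases hc : WC X E
  · rw [bw_of_WC hc]; exact hc.1
  · rw [bw_of_not hc]; exact connIn_singleton (h.mem 0)

theorem bw_ne (X : Set ℂ) (b : ZMod 3 → ℂ) (E : Set ℂ) : (bw X b E).Nonempty := by
  by_cases hc : WC X E
  · rw [bw_of_WC hc]; exact hc.2.1
  · rw [bw_of_not hc]; exact singleton_nonempty _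

/-- **The total world 0** with the explored set `E`; `X`, `b`, `hull` are definitionally the given
ones. -/
noncomputable def wrd (h : HullTri X b) (E : Set ℂ) : W0 where
  X := X
  b := b
  hull := h
  B := bw X b E
  conn := bw_conn h E
  ne := bw_ne X b E

variable (h : HullTri X b)

theorem wrd_X (E : Set ℂ) : (wrd h E).X = X := rfl

theorem wrd_b (E : Set ℂ) : (wrd h E).b = b := rfl

variable {h}

theorem wrd_B (hc : WC X E) : (wrd h E).B = X \ fr X E := bw_of_WC hc

theorem wrd_B_of_not (hc : ¬ WC X E) : (wrd h E).B = {b 0} := bw_of_not hc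

theorem wrd_free (hc : WC X E) {x : ℂ} : (wrd h E).Free x ↔ x ∈ fr X E := by
  unfold W0.Free
  rw [wrd_X, wrd_B hc]
  constructor
  · rintro ⟨h1, h2⟩
    by_contra h3
    exact h2 ⟨h1, h3⟩
  · intro h1
    exact ⟨fr_sub h1, fun h2 => h2.2 h1⟩

/-- The sites near `0` are free in every case. -/
theorem wrd_center (hb : b 0 ∉ ball (0 : ℂ) (3 / 4)) {x : ℂ} (hx : x ∈ X)
    (hx' : x ∈ ball (0 : ℂ) (3 / 4)) : x ∉ (wrd h E).B := by
  by_cases hc : WC X E
  · rw [wrd_B hc]
    exact fun h1 => h1.2 (hc.2.2 ⟨hx, hx'⟩)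
  · rw [wrd_B_of_not hc]
    rintro rfl
    exact hb hx'

/-- The facts of helper592's `WFacts` give a genuine world. -/
theorem wc_of_facts {a : ℝ} {sg : ℂ → Bool} (F : WFacts a X E (fr X E) sg) : WC X E := by
  refine ⟨F.conn, F.ne, fun z hz => F.core ⟨hz.1, ?_⟩⟩
  have h1 := F.a1
  have h2 := hz.2
  rw [mem_ball] at h2 ⊢
  linarith

/-! ### the explored set of a composite colouring -/

/-- The explored set of world 0 (`σ` = composite colouring of the sites, `true` = black). -/
def E0X (M : ℕ) (X : Set ℂ) (σ : X → Bool) : Set ℂ :=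
  EJ M X univ ∅ (pc Subtype.val true σ) (pc Subtype.val false σ)

/-- The explored set with the gates `K` and the excluded region `J`. -/
def EJX (M : ℕ) (X : Set ℂ) (K : Set ℕ) (J : Set ℂ) (σ : X → Bool) : Set ℂ :=
  EJ M X K J (pc Subtype.val true σ) (pc Subtype.val false σ)

/-- The same as a set of vertices. -/
def EJV (M : ℕ) (X : Set ℂ) (K : Set ℕ) (J : Set ℂ) (σ : X → Bool) : Set X :=
  {v | v.1 ∈ EJX M X K J σ}

/-- The explored set of world 0 as a set of vertices. -/
def E0 (M : ℕ) (X : Set ℂ) (σ : X → Bool) : Set X := {v | v.1 ∈ E0X M X σ}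

theorem E0_eq (M : ℕ) (X : Set ℂ) : E0 M X = EJV M X univ ∅ := rfl

theorem mem_pc_val {c : Bool} {σ : X → Bool} {z : ℂ} (hz : z ∈ X) :
    z ∈ pc Subtype.val c σ ↔ σ ⟨z, hz⟩ = c := by
  constructor
  · rintro ⟨w, hw, rfl⟩; exact hw
  · intro h1; exact ⟨⟨z, hz⟩, h1, rfl⟩

theorem EJX_congr {K : Set ℕ} {J : Set ℂ} {σ ρ : X → Bool} (hA : Agree (EJV M X K J σ) σ ρ) :
    EJX M X K J ρ = EJX M X K J σ := by
  refine EJ_congr fun z hz => ?_
  have hzX : z ∈ X := EJ_sub_X hz
  have h1 : ρ ⟨z, hzX⟩ = σ ⟨z, hzX⟩ := hA ⟨z, hzX⟩ hz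
  rw [mem_pc_val hzX, mem_pc_val hzX, mem_pc_val hzX, mem_pc_val hzX, h1]
  exact ⟨Iff.rfl, Iff.rfl⟩

theorem E0X_congr {σ ρ : X → Bool} (hA : Agree (E0 M X σ) σ ρ) : E0X M X ρ = E0X M X σ :=
  EJX_congr hA

/-- **Stopping set.** -/
theorem isStop_EJV (M : ℕ) (X : Set ℂ) (K : Set ℕ) (J : Set ℂ) :
    IsStop (EJV M X K J) := by
  intro σ ρ hA
  unfold EJV
  rw [EJX_congr hA]

theorem isStop_E0 (M : ℕ) (X : Set ℂ) : IsStop (E0 M X) := isStop_EJV M X univ ∅

theorem EJX_sub_E0X {K : Set ℕ} {J : Set ℂ} {σ : X → Bool} : EJX M X K J σ ⊆ E0X M X σ :=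
  EJ_anti (subset_univ K) (empty_subset J)

theorem EJV_sub_E0 {K : Set ℕ} {J : Set ℂ} {σ : X → Bool} : EJV M X K J σ ⊆ E0 M X σ :=
  fun _ hv => EJX_sub_E0X hv

theorem E0X_sub {σ : X → Bool} : E0X M X σ ⊆ X := EJ_sub_X

/-! ### the world of a composite colouring -/

/-- **World 0 of the composite colouring `σ`.** -/
noncomputable def wd (h : HullTri X b) (M : ℕ) (σ : X → Bool) : W0 := wrd h (E0X M X σ)

theorem wd_congr {σ ρ : X → Bool} (hA : Agree (E0 M X σ) σ ρ) : wd h M ρ = wd h M σ := by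
  unfold wd
  rw [E0X_congr hA]

/-- The world does not look at the colours off the explored set. -/
theorem wd_glue [Fintype X] (σ ρ : X → Bool) : wd h M (glue (E0 M X σ) σ ρ) = wd h M σ :=
  wd_congr (agree_glue _ _ _)

/-- The explored set of the three-coin composite. -/
theorem E0_comp [Fintype X] (H : (X → Bool) → Set X) (c₁ c₂ c₃ : X → Bool) :
    E0 M X (H838.comp H (E0 M X) c₁ c₂ c₃) = E0 M X (H838.s12 H c₁ c₂) :=
  isStop_E0 M X _ _ (agree_glue _ _ _)

/-- The world of the three-coin composite. -/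
theorem wd_comp [Fintype X] (H : (X → Bool) → Set X) (c₁ c₂ c₃ : X → Bool) :
    wd h M (H838.comp H (E0 M X) c₁ c₂ c₃) = wd h M (H838.s12 H c₁ c₂) :=
  wd_congr (agree_glue _ _ _)

/-- Free sites are not explored. -/
theorem wd_free_not {σ : X → Bool} (hc : WC X (E0X M X σ)) {x : ℂ} (hx : (wd h M σ).Free x) :
    x ∉ E0X M X σ := fr_not_mem ((wrd_free hc).1 hx)

/-- Recolouring free sites changes nothing. -/
theorem wd_of_free {σ ρ : X → Bool} (hc : WC X (E0X M X σ))
    (hA : ∀ v : X, ¬ (wd h M σ).Free v.1 → ρ v = σ v) :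
    E0X M X ρ = E0X M X σ ∧ wd h M ρ = wd h M σ := by
  have h1 : Agree (E0 M X σ) σ ρ := fun v hv => hA v fun hf => wd_free_not hc hf hv
  exact ⟨E0X_congr h1, wd_congr h1⟩

/-! ### the two stages with the law of the comb -/

section law

variable [Fintype X] (hM : 0 < M)

/-- All the hubs of the comb as one stopping set. -/
def HubV (M : ℕ) (X : Set ℂ) (σ : X → Bool) : Set X :=
  ⋃ k ∈ Finset.range (nc M), H172.hubs M X Subtype.val k σ

theorem isStop_HubV : IsStop (HubV M X) :=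
  H838.isStop_biUnion (s := {k | k ∈ Finset.range (nc M)})
    (A := fun k => H172.hubs M X Subtype.val k) fun k _ => H172.stop_hubs M X _ k

omit [Fintype X] in
theorem mem_HubV {σ : X → Bool} {v : X} :
    v ∈ HubV M X σ ↔ v.1 ∈ Ex M X (pc Subtype.val true σ) (pc Subtype.val false σ) := by
  unfold HubV
  rw [mem_Ex]
  simp only [mem_iUnion, exists_prop, Finset.mem_range]
  rfl

/-- The composite colouring of the comb law is `s12`. -/
theorem comb_w (c₁ c₂ : X → Bool) :
    (H172.combLaw hM X (Subtype.val : X → ℂ)).w c₁ c₂ = H838.s12 (HubV M X) c₁ c₂ := rfl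

/-- The black (`c = true`) or white sites of `s12`. -/
theorem pc_s12 (c : Bool) (c₁ c₂ : X → Bool) :
    pc (Subtype.val : X → ℂ) c (H838.s12 (HubV M X) c₁ c₂) =
      mix (Ex M X (pc Subtype.val true c₁) (pc Subtype.val false c₁))
        (pc Subtype.val c c₁) (pc Subtype.val c c₂) :=
  H172.pc_glue Subtype.val_injective (fun _ => mem_HubV) c c₁ c₂

/-- The explored set of `s12` in the language of `Cl.lean`. -/
theorem EJX_s12 (K : Set ℕ) (J : Set ℂ) (c₁ c₂ : X → Bool) :
    EJX M X K J (H838.s12 (HubV M X) c₁ c₂) =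
      EJ M X K J
        (mB M X (pc Subtype.val true c₁) (pc Subtype.val false c₁) (pc Subtype.val true c₂))
        (mW M X (pc Subtype.val true c₁) (pc Subtype.val false c₁) (pc Subtype.val false c₂)) := by
  unfold EJX
  rw [pc_s12, pc_s12]

theorem E0X_s12 (c₁ c₂ : X → Bool) :
    E0X M X (H838.s12 (HubV M X) c₁ c₂) =
      EJ M X univ ∅
        (mB M X (pc Subtype.val true c₁) (pc Subtype.val false c₁) (pc Subtype.val true c₂))
        (mW M X (pc Subtype.val true c₁) (pc Subtype.val false c₁) (pc Subtype.val false c₂)) :=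
  EJX_s12 univ ∅ c₁ c₂

omit [Fintype X] in
/-- Every site is black or white. -/
theorem pc_cover (σ : X → Bool) : X ⊆ pc Subtype.val true σ ∪ pc Subtype.val false σ := by
  intro z hz
  cases hs : σ ⟨z, hz⟩
  · exact Or.inr ((mem_pc_val hz).2 hs)
  · exact Or.inl ((mem_pc_val hz).2 hs)

omit [Fintype X] in
theorem pc_sub (c : Bool) (σ : X → Bool) : pc Subtype.val c σ ⊆ X := by
  rintro z ⟨v, -, rfl⟩
  exact v.2

/-- The colour as a function on the plane (`false` off the sites). -/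
noncomputable def sgX (X : Set ℂ) (σ : X → Bool) (z : ℂ) : Bool := by
  classical exact if hz : z ∈ X then σ ⟨z, hz⟩ else false

omit [Fintype X] in
theorem sgX_val (σ : X → Bool) (v : X) : sgX X σ v.1 = σ v := by
  unfold sgX; rw [dif_pos v.2]

omit [Fintype X] in
theorem sgX_eq (σ : X → Bool) {z : ℂ} (hz : z ∈ X) : sgX X σ z = σ ⟨z, hz⟩ := by
  unfold sgX; rw [dif_pos hz]

end law

end Vale.Agent.P148.R2.H678
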