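import Vale.Agent.P148.R2.H678.Sep
import Vale.Agent.P148.R2.H953.Tool2

/-!
# P148, D7: the explored set

`rd r H D W`: the least set which contains `H` and, with a point of `W`, its neighbours in `D`.
`RD r S D C W`: the same with `H` = the hub of the seeds `S` (core colour `C`).
`EJ M X K J Bl Wh`: outer hubs of the gates in `K`, white growth in `{nsup < 1 + 2 a}` off `J`.
-/

open Set Relation Metric

namespace Vale.Agent.P148.R2.H678

open Vale.Agent.P148.R2.N (ms nc gateC gbox cell ms_pos)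
open Vale.Agent.P148.R2.H592 (nbr nbr_symm ConnIn)
open Vale.Agent.P148.R2.H995 (nsup Circ Chain prad)

/-! ### the closure -/

section Closure

variable {α : Type*} (r : α → α → Prop) (H D W : Set α)

/-- The least set which contains `H` and, with a point of `W`, its neighbours in `D`. -/
def rd : Set α := {u | ∃ v ∈ H, ReflTransGen (fun a b => a ∈ W ∧ r a b ∧ b ∈ D) v u}

variable {r H D W} {H' D' W' A : Set α}

theorem sub_rd : H ⊆ rd r H D W := fun v hv => ⟨v, hv, ReflTransGen.refl⟩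

theorem rd_step {v u : α} (hv : v ∈ rd r H D W) (hW : v ∈ W) (h : r v u) (hu : u ∈ D) :
    u ∈ rd r H D W := by
  obtain ⟨s, hs, hsv⟩ := hv
  exact ⟨s, hs, hsv.tail ⟨hW, h, hu⟩⟩

/-- Induction principle. -/
theorem rd_sub (A : Set α) (hH : H ⊆ A) (h : ∀ v ∈ A, v ∈ W → ∀ u, r v u → u ∈ D → u ∈ A) :
    rd r H D W ⊆ A := by
  rintro u ⟨s, hs, hsu⟩
  induction hsu with
  | refl => exact hH hs
  | tail _ hab ih => exact h _ ih hab.1 _ hab.2.1 hab.2.2

theorem rd_sub_union : rd r H D W ⊆ H ∪ D :=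
  rd_sub _ subset_union_left fun _ _ _ _ _ hu => Or.inr hu

theorem rd_mono (hH : H ⊆ H') (hD : D ⊆ D') (hW : W ⊆ W') : rd r H D W ⊆ rd r H' D' W' :=
  rd_sub _ (hH.trans sub_rd) fun _ hv hvW _ h hu => rd_step hv (hW hvW) h (hD hu)

/-- **Stopping property.** -/
theorem rd_congr (h : ∀ v ∈ rd r H D W, (v ∈ W' ↔ v ∈ W)) : rd r H D W' = rd r H D W := by
  apply Subset.antisymm
  · exact rd_sub _ sub_rd fun v hv hvW u huv hu => rd_step hv ((h v hv).1 hvW) huv hu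
  · refine Subset.trans (b := rd r H D W ∩ rd r H D W') ?_ inter_subset_right
    exact rd_sub _ (fun s hs => ⟨sub_rd hs, sub_rd hs⟩) fun v hv hvW u huv hu =>
      ⟨rd_step hv.1 hvW huv hu, rd_step hv.2 ((h v hv.1).2 hvW) huv hu⟩

/-- Boundary: a point of the closure with a neighbour in `D` off the closure is not in `W`. -/
theorem rd_bdry {v u : α} (hv : v ∈ rd r H D W) (h : r v u) (hu : u ∉ rd r H D W) (huD : u ∈ D) :
    v ∉ W := fun hW => hu (rd_step hv hW h huD)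

/-- Off `D` the closure is the starting set. -/
theorem rd_inter (h : Disjoint D A) : rd r H D W ∩ A = H ∩ A := by
  apply Subset.antisymm
  · rintro v ⟨hv, hA⟩
    rcases rd_sub_union hv with h1 | h1
    · exact ⟨h1, hA⟩
    · exact absurd hA (Set.disjoint_left.1 h h1)
  · exact inter_subset_inter_left _ sub_rd

/-- The predecessor of a point off the starting set. -/
theorem rd_pred {u : α} (hu : u ∈ rd r H D W) (huH : u ∉ H) :
    u ∈ D ∧ ∃ v ∈ rd r H D W, v ∈ W ∧ r v u := by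
  obtain ⟨s, hs, hsu⟩ := hu
  rcases ReflTransGen.cases_tail hsu with h | ⟨b, hsb, hb⟩
  · exact absurd (h ▸ hs) huH
  · exact ⟨hb.2.2, b, ⟨s, hs, hsb⟩, hb.1, hb.2.1⟩

/-- A path of points of `W` in `D` which starts in the closure stays in the closure. -/
theorem rd_path {n : ℕ} {v : ℕ → α} (h0 : v 0 ∈ rd r H D W)
    (h : ∀ i < n, r (v i) (v (i + 1)) ∧ v i ∈ W ∧ v (i + 1) ∈ D) : ∀ i ≤ n, v i ∈ rd r H D W := by
  intro i
  induction i with
  | zero => intro _; exact h0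
  | succ i ih =>
    intro hi
    exact rd_step (ih (by omega)) (h i (by omega)).2.1 (h i (by omega)).1 (h i (by omega)).2.2

/-- A set of points of `W` in `D` joined to the closure. -/
theorem rd_of_joined {Y : Set α} (hYW : Y ⊆ W) (hYD : Y ⊆ D) {a b : α} (ha : a ∈ rd r H D W)
    (hab : ReflTransGen (fun x y => r x y ∧ x ∈ Y ∧ y ∈ Y) a b) : b ∈ rd r H D W := by
  induction hab with
  | refl => exact ha
  | tail _ h ih => exact rd_step ih (hYW h.2.1) h.1 (hYD h.2.2)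

theorem joined_mono {Y Y' : Set α} (hY : Y ⊆ Y') {a b : α}
    (h : ReflTransGen (fun x y => r x y ∧ x ∈ Y ∧ y ∈ Y) a b) :
    ReflTransGen (fun x y => r x y ∧ x ∈ Y' ∧ y ∈ Y') a b :=
  ReflTransGen.mono (fun _ _ (h : r _ _ ∧ _ ∧ _) => ⟨h.1, hY h.2.1, hY h.2.2⟩) _ _ h

theorem joined_symm (hr : ∀ a b, r a b → r b a) {Y : Set α} {a b : α}
    (h : ReflTransGen (fun x y => r x y ∧ x ∈ Y ∧ y ∈ Y) a b) :
    ReflTransGen (fun x y => r x y ∧ x ∈ Y ∧ y ∈ Y) b a := by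
  induction h with
  | refl => exact ReflTransGen.refl
  | tail _ hbc ih => exact ReflTransGen.head ⟨hr _ _ hbc.1, hbc.2.2, hbc.2.1⟩ ih

/-- Every point of the closure is joined to the starting set inside the closure. -/
theorem rd_joined {u : α} (hu : u ∈ rd r H D W) :
    ∃ s ∈ H, ReflTransGen (fun x y => r x y ∧ x ∈ rd r H D W ∧ y ∈ rd r H D W) s u := by
  obtain ⟨s, hs, hsu⟩ := hu
  refine ⟨s, hs, ?_⟩
  induction hsu with
  | refl => exact ReflTransGen.refl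
  | @tail b c hsb hbc ih => exact ih.tail ⟨hbc.2.1, ⟨s, hs, hsb⟩, ⟨s, hs, hsb.tail hbc⟩⟩

end Closure

/-! ### hubs of several seeds -/

section Hubs

variable {α : Type*} {r : α → α → Prop} {S S' C : Set α} {ι : Type*} {T : ι → Set α}
  {K : Set ι}

theorem core_iUnion : core r (⋃ k ∈ K, T k) C = ⋃ k ∈ K, core r (T k) C := by
  ext v
  simp only [core, mem_iUnion, mem_ofPred_eq, exists_prop]
  constructor
  · rintro ⟨s, ⟨k, hk, hs⟩, h⟩; exact ⟨k, hk, s, hs, h⟩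
  · rintro ⟨k, hk, s, hs, h⟩; exact ⟨s, ⟨k, hk, hs⟩, h⟩

theorem hub_iUnion : hub r (⋃ k ∈ K, T k) C = ⋃ k ∈ K, hub r (T k) C := by
  ext v
  unfold hub
  rw [core_iUnion]
  simp only [mem_union, mem_iUnion, mem_ofPred_eq, exists_prop]
  constructor
  · rintro (⟨k, hk, h⟩ | ⟨u, ⟨k, hk, hu⟩, h⟩)
    · exact ⟨k, hk, Or.inl h⟩
    · exact ⟨k, hk, Or.inr ⟨u, hu, h⟩⟩
  · rintro ⟨k, hk, h | ⟨u, hu, h⟩⟩
    · exact Or.inl ⟨k, hk, h⟩
    · exact Or.inr ⟨u, ⟨k, hk, hu⟩, h⟩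

/-- The hub of a connected seed is connected. -/
theorem hub_conn (hr : ∀ a b, r a b → r b a)
    (hS : ∀ s ∈ S, ∀ s' ∈ S, ReflTransGen (fun a b => r a b ∧ a ∈ S ∧ b ∈ S) s s') {u v : α}
    (hu : u ∈ hub r S C) (hv : v ∈ hub r S C) :
    ReflTransGen (fun a b => r a b ∧ a ∈ hub r S C ∧ b ∈ hub r S C) u v := by
  have key : ∀ w ∈ hub r S C, ∃ x ∈ core r S C,
      ReflTransGen (fun a b => r a b ∧ a ∈ hub r S C ∧ b ∈ hub r S C) x w := by
    rintro w (hw | ⟨x, hx, hxw⟩)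
    · exact ⟨w, hw, ReflTransGen.refl⟩
    · exact ⟨x, hx, ReflTransGen.single ⟨hxw, core_sub_hub hx, hub_step hx hxw⟩⟩
  obtain ⟨x, hx, hxu⟩ := key u hu
  obtain ⟨y, hy, hyv⟩ := key v hv
  have h1 : ReflTransGen (fun a b => r a b ∧ a ∈ hub r S C ∧ b ∈ hub r S C) x y :=
    joined_mono core_sub_hub (core_conn hr hS hx hy)
  exact (joined_symm hr hxu).trans (h1.trans hyv)

end Hubs

section RDset

variable {α : Type*} (r : α → α → Prop) (S D C W : Set α)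

/-- The closure of the complete hubs of the seeds `S` (`C` = colour of the cores, `W` = the other
colour): the explored set of D7. -/
def RD : Set α := rd r (hub r S C) D W

variable {r S D C W} {S' D' C' W' A : Set α}

theorem hub_sub_RD : hub r S C ⊆ RD r S D C W := sub_rd

theorem hub_mono_seed (hS : S ⊆ S') : hub r S C ⊆ hub r S' C := by
  have h1 : core r S C ⊆ core r S' C := by
    rintro v ⟨s, hs, h⟩
    exact ⟨s, hS hs, h⟩
  rintro v (hv | ⟨u, hu, h⟩)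
  · exact core_sub_hub (h1 hv)
  · exact hub_step (h1 hu) h

theorem RD_mono (hS : S ⊆ S') (hD : D ⊆ D') : RD r S D C W ⊆ RD r S' D' C W :=
  rd_mono (hub_mono_seed hS) hD Subset.rfl

/-- **Stopping property.** -/
theorem RD_congr (h : ∀ v ∈ RD r S D C W, (v ∈ C' ↔ v ∈ C) ∧ (v ∈ W' ↔ v ∈ W)) :
    RD r S D C' W' = RD r S D C W := by
  unfold RD
  rw [hub_congr (C' := C') fun v hv => (h v (sub_rd hv)).1]
  exact rd_congr fun v hv => (h v hv).2

/-- **Black boundary.** A point of the closure with a neighbour in `D` off the closure has the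
colour `C`, is not in a hub, and lies in `D`. -/
theorem RD_bdry {v u : α} (hv : v ∈ RD r S D C W) (h : r v u) (hu : u ∉ RD r S D C W)
    (huD : u ∈ D) (hc : v ∈ C ∨ v ∈ W) : v ∈ C ∧ v ∉ W ∧ v ∉ hub r S C ∧ v ∈ D := by
  have h1 : v ∉ W := rd_bdry hv h hu huD
  have h2 : v ∈ C := hc.resolve_right h1
  have h3 : v ∉ hub r S C := by
    rw [hub_eq]
    rintro (h4 | h4)
    · exact hu (sub_rd (hub_step h4 h))
    · exact rim_not h4 h2
  exact ⟨h2, h1, h3, (rd_sub_union hv).resolve_left h3⟩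

/-- The closure is connected when the seeds are joined inside it. -/
theorem RD_conn (hr : ∀ a b, r a b → r b a)
    (hS : ∀ s ∈ hub r S C, ∀ s' ∈ hub r S C,
      ReflTransGen (fun a b => r a b ∧ a ∈ RD r S D C W ∧ b ∈ RD r S D C W) s s') {u v : α}
    (hu : u ∈ RD r S D C W) (hv : v ∈ RD r S D C W) :
    ReflTransGen (fun a b => r a b ∧ a ∈ RD r S D C W ∧ b ∈ RD r S D C W) u v := by
  obtain ⟨s, hs, h1⟩ := rd_joined hu
  obtain ⟨s', hs', h2⟩ := rd_joined hv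
  exact (joined_symm hr h1).trans ((hS s hs s' hs').trans h2)

end RDset

/-! ### the explored set of the collar -/

variable {M : ℕ} {X Bl Wh Bl₁ Wh₁ Bl₂ Wh₂ J J' : Set ℂ} {K K' : Set ℕ} {k : ℕ}

/-- The seeds of the outer hubs of the gates in `K`. -/
def oseed (M : ℕ) (X : Set ℂ) (K : Set ℕ) : Set ℂ := ⋃ k ∈ K, X ∩ ball (pout M k) (sd M)

/-- The sites which may be explored: the exterior is never explored. -/
def D0 (M : ℕ) (X : Set ℂ) : Set ℂ := {z | z ∈ X ∧ nsup z < 1 + 2 * ms M}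

/-- **The explored set**: complete outer hubs of the gates in `K`, white growth off `J`. -/
def EJ (M : ℕ) (X : Set ℂ) (K : Set ℕ) (J Bl Wh : Set ℂ) : Set ℂ :=
  RD (nbr X) (oseed M X K) (D0 M X \ J) Bl Wh

theorem hub_oseed : hub (nbr X) (oseed M X K) Bl = ⋃ k ∈ K, outHub M X Bl k := hub_iUnion

theorem outHub_sub_EJ (hk : k ∈ K) : outHub M X Bl k ⊆ EJ M X K J Bl Wh := by
  refine Subset.trans ?_ sub_rd
  rw [hub_oseed]
  exact subset_biUnion_of_mem (u := fun k => outHub M X Bl k) hk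

theorem outRim_sub_EJ (hk : k ∈ K) : outRim M X Bl k ⊆ EJ M X K J Bl Wh :=
  rim_sub_hub.trans (outHub_sub_EJ hk)

theorem EJ_sub : EJ M X K J Bl Wh ⊆ (⋃ k ∈ K, outHub M X Bl k) ∪ (D0 M X \ J) := by
  unfold EJ RD
  exact rd_sub_union.trans (union_subset_union_left _ hub_oseed.subset)

theorem EJ_sub_X : EJ M X K J Bl Wh ⊆ X := by
  refine EJ_sub.trans (union_subset ?_ ?_)
  · exact iUnion₂_subset fun k _ => hub_sub_X
  · exact fun z hz => hz.1.1

theorem EJ_anti (hK : K ⊆ K') (hJ : J' ⊆ J) : EJ M X K J Bl Wh ⊆ EJ M X K' J' Bl Wh :=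
  RD_mono (biUnion_subset_biUnion_left hK) fun _ hz => ⟨hz.1, fun h => hz.2 (hJ h)⟩

/-- **Stopping property**: the explored set is determined by the colours on it. -/
theorem EJ_congr {Bl' Wh' : Set ℂ}
    (h : ∀ v ∈ EJ M X K J Bl Wh, (v ∈ Bl' ↔ v ∈ Bl) ∧ (v ∈ Wh' ↔ v ∈ Wh)) :
    EJ M X K J Bl' Wh' = EJ M X K J Bl Wh := RD_congr h

/-- In the excluded region only the hubs are explored. -/
theorem EJ_inter : EJ M X K J Bl Wh ∩ J = (⋃ k ∈ K, outHub M X Bl k) ∩ J := by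
  unfold EJ RD
  rw [rd_inter disjoint_sdiff_left, hub_oseed]

/-- **Black boundary** towards unexplored sites which may be explored. -/
theorem EJ_bdry (hX : X ⊆ Bl ∪ Wh) {v u : ℂ} (hv : v ∈ EJ M X K J Bl Wh) (h : nbr X v u)
    (hu : u ∉ EJ M X K J Bl Wh) (huD : nsup u < 1 + 2 * ms M) (huJ : u ∉ J) :
    v ∈ Bl ∧ v ∉ Wh ∧ (∀ k ∈ K, v ∉ outHub M X Bl k) ∧ nsup v < 1 + 2 * ms M ∧ v ∉ J := by
  obtain ⟨h1, h2, h3, h4⟩ := RD_bdry (S := oseed M X K) hv h hu ⟨⟨h.2.1, huD⟩, huJ⟩ (hX h.1)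
  refine ⟨h1, h2, fun k hk hvk => h3 ?_, h4.1.2, h4.2⟩
  rw [hub_oseed]
  exact mem_biUnion hk hvk

/-- White growth: points of a connected white set. -/
theorem EJ_of_joined {Y : Set ℂ} (hYW : Y ⊆ Wh) (hYD : ∀ z ∈ Y, nsup z < 1 + 2 * ms M)
    (hYJ : Disjoint Y J) {a b : ℂ} (ha : a ∈ EJ M X K J Bl Wh)
    (hab : ReflTransGen (fun x y => nbr X x y ∧ x ∈ Y ∧ y ∈ Y) a b) : b ∈ EJ M X K J Bl Wh := by
  induction hab with
  | refl => exact ha
  | tail _ h ih =>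
    exact rd_step ih (hYW h.2.1) h.1 ⟨⟨h.1.2.1, hYD _ h.2.2⟩, Set.disjoint_left.1 hYJ h.2.2⟩

/-- Neighbours of white explored points. -/
theorem EJ_step {v u : ℂ} (hv : v ∈ EJ M X K J Bl Wh) (hW : v ∈ Wh) (h : nbr X v u)
    (huD : nsup u < 1 + 2 * ms M) (huJ : u ∉ J) : u ∈ EJ M X K J Bl Wh :=
  rd_step hv hW h ⟨⟨h.2.1, huD⟩, huJ⟩

/-! ### the colouring on a finite type of sites -/

section Stop

variable {V : Type*} (e : V → ℂ)

/-- The sites of the colour `c`. -/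
def pcol (c : Bool) (σ : V → Bool) : Set ℂ := e '' {v | σ v = c}

theorem mem_pcol {e : V → ℂ} (he : Function.Injective e) {c : Bool} {σ : V → Bool} {v : V} :
    e v ∈ pcol e c σ ↔ σ v = c := by
  constructor
  · rintro ⟨w, hw, hwv⟩
    rw [← he hwv]; exact hw
  · intro h; exact ⟨v, h, rfl⟩

/-- The explored set of the colouring `σ` (`c` = black). -/
def EV (M : ℕ) (K : Set ℕ) (J : Set ℂ) (c : Bool) (σ : V → Bool) : Set V :=
  e ⁻¹' EJ M (range e) K J (pcol e c σ) (pcol e (!c) σ)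

/-- **The explored set is a stopping set.** -/
theorem isStop_EV [Fintype V] {e : V → ℂ} (he : Function.Injective e) (M : ℕ) (K : Set ℕ)
    (J : Set ℂ) (c : Bool) : H953.IsStop (EV e M K J c) := by
  intro σ ρ h
  unfold EV
  rw [EJ_congr]
  intro z hz
  obtain ⟨v, rfl⟩ := EJ_sub_X hz
  have h1 : ρ v = σ v := h v hz
  rw [mem_pcol he, mem_pcol he, mem_pcol he, mem_pcol he, h1]
  exact ⟨Iff.rfl, Iff.rfl⟩

theorem EV_anti {e : V → ℂ} {c : Bool} {σ : V → Bool} (hK : K ⊆ K') (hJ : J' ⊆ J) :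
    EV e M K J c σ ⊆ EV e M K' J' c σ := preimage_mono (EJ_anti hK hJ)

end Stop

/-! ### hubs of the mixed colouring -/

theorem inHub_mix (k : ℕ) :
    inHub M X (mix (Ex M X Bl₁ Wh₁) Wh₁ Wh₂) k = inHub M X Wh₁ k :=
  hub_congr fun _ hv => mem_mix_of_mem (mem_iUnion.2 ⟨k, Or.inl hv⟩)

theorem outHub_mix (k : ℕ) :
    outHub M X (mix (Ex M X Bl₁ Wh₁) Bl₁ Bl₂) k = outHub M X Bl₁ k :=
  hub_congr fun _ hv => mem_mix_of_mem (mem_iUnion.2 ⟨k, Or.inr hv⟩)

theorem inRim_mix (k : ℕ) :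
    inRim M X (mix (Ex M X Bl₁ Wh₁) Wh₁ Wh₂) k = inRim M X Wh₁ k :=
  rim_congr fun _ hv => mem_mix_of_mem (mem_iUnion.2 ⟨k, Or.inl hv⟩)

theorem outRim_mix (k : ℕ) :
    outRim M X (mix (Ex M X Bl₁ Wh₁) Bl₁ Bl₂) k = outRim M X Bl₁ k :=
  rim_congr fun _ hv => mem_mix_of_mem (mem_iUnion.2 ⟨k, Or.inr hv⟩)

/-! ### sup norm of gate boxes and cells -/

theorem nsup_I_pow (s : ℕ) (w : ℂ) : nsup (Complex.I ^ s * w) = nsup w := by
  induction s with
  | zero => simp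
  | succ s ih => rw [pow_succ', mul_assoc, H995.nsup_I_mul, ih]

theorem gbox_nsup (hM : 0 < M) {z : ℂ} (hz : z ∈ gbox M k) :
    1 + 3 * ms M / 8 < nsup z ∧ nsup z < 1 + 5 * ms M / 8 := by
  obtain ⟨w, rfl⟩ := N.exists_eq_I_pow_mul (k / (2 * M + 1)) z
  obtain ⟨⟨a1, a2⟩, a3, a4⟩ := N.mem_gbox_iff.1 hz
  have h2 := N.mod_mul_le hM k
  have h3 := ms_pos hM
  have h4 : (0 : ℝ) ≤ ((k % (2 * M + 1) : ℕ) : ℝ) * ms M := by positivity
  rw [nsup_I_pow]
  constructor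
  · exact a1.trans_le ((le_abs_self _).trans (le_max_left _ _))
  · refine max_lt (abs_lt.2 ⟨by linarith, a2⟩) (abs_lt.2 ⟨by linarith, by linarith⟩)

theorem cell_nsup (hM : 0 < M) {z : ℂ} (hz : z ∈ cell M k) :
    1 < nsup z ∧ nsup z < 1 + ms M := by
  obtain ⟨w, rfl⟩ := N.exists_eq_I_pow_mul (k / (2 * M + 1)) z
  obtain ⟨⟨a1, a2⟩, a3, a4⟩ := N.mem_cell_iff.1 hz
  have h2 := N.mod_mul_le hM k
  have h3 := ms_pos hM
  have h4 : (0 : ℝ) ≤ ((k % (2 * M + 1) : ℕ) : ℝ) * ms M := by positivity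
  rw [nsup_I_pow]
  constructor
  · exact a1.trans_le ((le_abs_self _).trans (le_max_left _ _))
  · refine max_lt (abs_lt.2 ⟨by linarith, a2⟩) (abs_lt.2 ⟨by linarith, by linarith⟩)

/-- Explored sites are not in the exterior. -/
theorem EJ_nsup (hM : 0 < M) (h : ∀ k ∈ K, outHub M X Bl k ⊆ hbox M (pout M k)) {z : ℂ}
    (hz : z ∈ EJ M X K J Bl Wh) : nsup z < 1 + 2 * ms M := by
  rcases EJ_sub hz with h1 | h1
  · obtain ⟨k, hk, hzk⟩ := mem_iUnion₂.1 h1
    have h2 := (gbox_nsup hM (H995.hbox_pout_sub hM k (h k hk hzk))).2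
    have h3 := ms_pos hM
    linarith
  · exact h1.1.2

/-! ### connectedness on the comb event -/

theorem rails_mod (k : ℕ) : Rails M X Bl Wh (k % nc M) ↔ Rails M X Bl Wh k := by
  unfold Rails
  rw [pin_succ_mod, pout_succ_mod, H995.pin_mod, H995.pout_mod]

theorem tooth_mod (k : ℕ) : Tooth M X Wh (k % nc M) ↔ Tooth M X Wh k := by
  unfold Tooth
  rw [H995.pin_mod, H995.pout_mod]

theorem rad_mod (k : ℕ) : Rad M X Wh (k % nc M) ↔ Rad M X Wh k := by
  unfold Rad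
  rw [H995.pout_mod, H995.prad_mod]

theorem outHub_conn (hX : X.Finite) (k : ℕ) : ConnIn X (outHub M X Bl k) :=
  ⟨hub_sub_X, fun _ hu _ hv =>
    hub_conn (fun _ _ => nbr_symm) (H592.connIn_ball hX (pout M k) (sd M)).2 hu hv⟩

theorem inHub_conn (hX : X.Finite) (k : ℕ) : ConnIn X (inHub M X Wh k) :=
  ⟨hub_sub_X, fun _ hu _ hv =>
    hub_conn (fun _ _ => nbr_symm) (H592.connIn_ball hX (pin M k) (sd M)).2 hu hv⟩

section Comb

variable (hM : 0 < M) (hX : X ⊆ Bl₁ ∪ Wh₁) (hW : Wh₂ ⊆ X) (hg : HubsGood M X Bl₁ Wh₁)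

/-- The mixed black and white points. -/
abbrev mB (M : ℕ) (X Bl₁ Wh₁ Bl₂ : Set ℂ) : Set ℂ := mix (Ex M X Bl₁ Wh₁) Bl₁ Bl₂

/-- The mixed white points. -/
abbrev mW (M : ℕ) (X Bl₁ Wh₁ Wh₂ : Set ℂ) : Set ℂ := mix (Ex M X Bl₁ Wh₁) Wh₁ Wh₂

include hM hX hW hg in
/-- The white rail joins the outer rims of two consecutive gates inside the explored set. -/
theorem up_joined (ht : Rails M X Bl₂ Wh₂ k) (hk : k ∈ K)
    (hJ : Disjoint (CBox M (pout M k) (pout M (k + 1))) J) :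
    ∃ a ∈ outRim M X Bl₁ k, ∃ b ∈ outRim M X Bl₁ (k + 1),
      ReflTransGen (fun x y => nbr X x y ∧
        x ∈ mW M X Bl₁ Wh₁ Wh₂ ∩ EJ M X K J (mB M X Bl₁ Wh₁ Bl₂) (mW M X Bl₁ Wh₁ Wh₂) ∩
          CBox M (pout M k) (pout M (k + 1)) ∧
        y ∈ mW M X Bl₁ Wh₁ Wh₂ ∩ EJ M X K J (mB M X Bl₁ Wh₁ Bl₂) (mW M X Bl₁ Wh₁ Wh₂) ∩
          CBox M (pout M k) (pout M (k + 1))) a b := by
  have hms := ms_pos hM
  obtain ⟨n, v, h0, h1, h2, h3, h4, h5⟩ := hg.up_link hM hW ht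
  have hwh : ∀ i ≤ n, v i ∈ mW M X Bl₁ Wh₁ Wh₂ := by
    intro i hi
    rcases Nat.eq_zero_or_pos i with rfl | hi0
    · exact outRim_white hX k h2
    · rcases hi.lt_or_eq with h' | rfl
      · exact (mem_mix_of_not_mem (h4 i hi0 h').2).2 (h4 i hi0 h').1
      · exact outRim_white hX (k + 1) h3
  have hE : ∀ i ≤ n, v i ∈ EJ M X K J (mB M X Bl₁ Wh₁ Bl₂) (mW M X Bl₁ Wh₁ Wh₂) := by
    refine rd_path (sub_rd ?_) fun i hi => ⟨h1 i hi, hwh i hi.le, ⟨(h1 i hi).2.1, ?_⟩, ?_⟩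
    · rw [hub_oseed]
      refine mem_biUnion hk ?_
      rw [outHub_mix]
      exact h2.1
    · have := (cell_nsup hM (H995.rail_out_sub hM k (h5 (i + 1) hi))).2
      linarith
    · exact Set.disjoint_left.1 hJ (h5 (i + 1) hi)
  refine ⟨v 0, h2, v n, h3, ?_⟩
  have key : ∀ m ≤ n, ReflTransGen (fun x y => nbr X x y ∧
      x ∈ mW M X Bl₁ Wh₁ Wh₂ ∩ EJ M X K J (mB M X Bl₁ Wh₁ Bl₂) (mW M X Bl₁ Wh₁ Wh₂) ∩
        CBox M (pout M k) (pout M (k + 1)) ∧
      y ∈ mW M X Bl₁ Wh₁ Wh₂ ∩ EJ M X K J (mB M X Bl₁ Wh₁ Bl₂) (mW M X Bl₁ Wh₁ Wh₂) ∩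
        CBox M (pout M k) (pout M (k + 1))) (v 0) (v m) := by
    intro m
    induction m with
    | zero => intro _; exact ReflTransGen.refl
    | succ m ih =>
      intro hm
      exact (ih (by omega)).tail ⟨h1 m (by omega), ⟨⟨hwh m (by omega), hE m (by omega)⟩,
        h5 m (by omega)⟩, ⟨⟨hwh (m + 1) hm, hE (m + 1) hm⟩, h5 (m + 1) hm⟩⟩
  exact key n le_rfl

include hM hX hW hg in
/-- **The explored set is connected** (gates `a, ..., b`, rails between them off `J`). -/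
theorem EJ_conn (hXf : X.Finite) {a b : ℕ} (ht : ∀ k, a ≤ k → k < b → Rails M X Bl₂ Wh₂ k)
    (hJ : ∀ k, a ≤ k → k < b → Disjoint (CBox M (pout M k) (pout M (k + 1))) J) :
    ConnIn X (EJ M X (Icc a b) J (mB M X Bl₁ Wh₁ Bl₂) (mW M X Bl₁ Wh₁ Wh₂)) := by
  set E := EJ M X (Icc a b) J (mB M X Bl₁ Wh₁ Bl₂) (mW M X Bl₁ Wh₁ Wh₂) with hEdef
  refine ⟨EJ_sub_X, fun u hu v hv => ?_⟩
  have hsym : ∀ x y, nbr X x y → nbr X y x := fun _ _ => nbr_symm
  have hhub : ∀ k ∈ Icc a b, ∀ x ∈ outHub M X Bl₁ k, ∀ y ∈ outHub M X Bl₁ k,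
      ReflTransGen (fun x y => nbr X x y ∧ x ∈ E ∧ y ∈ E) x y := by
    intro k hk x hx y hy
    refine joined_mono ?_ ((outHub_conn hXf k).2 x hx y hy)
    have := outHub_sub_EJ (M := M) (X := X) (Bl := mB M X Bl₁ Wh₁ Bl₂)
      (Wh := mW M X Bl₁ Wh₁ Wh₂) (J := J) hk
    rwa [outHub_mix] at this
  -- from gate `a` to gate `k`
  have key : ∀ k, a ≤ k → k ≤ b → ∀ x ∈ outHub M X Bl₁ a, ∀ y ∈ outHub M X Bl₁ k,
      ReflTransGen (fun x y => nbr X x y ∧ x ∈ E ∧ y ∈ E) x y := by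
    intro k
    induction k with
    | zero =>
      intro ha hb x hx y hy
      have : a = 0 := by omega
      subst this
      exact hhub 0 ⟨le_rfl, hb⟩ x hx y hy
    | succ k ih =>
      intro ha hb x hx y hy
      rcases ha.lt_or_eq with h | h
      · obtain ⟨p, hp, q, hq, hpq⟩ := up_joined hM hX hW hg (K := Icc a b) (J := J)
          (ht k (by omega) (by omega)) (k := k) ⟨by omega, by omega⟩ (hJ k (by omega) (by omega))
        have h1 := ih (by omega) (by omega) x hx p hp.1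
        have h2 := joined_mono (Y' := E) (fun z hz => hz.1.2) hpq
        exact h1.trans (h2.trans (hhub (k + 1) ⟨ha, hb⟩ q hq.1 y hy))
      · subst h
        exact hhub _ ⟨le_rfl, hb⟩ x hx y hy
  refine RD_conn hsym ?_ hu hv
  intro s hs s' hs'
  rw [hub_oseed] at hs hs'
  obtain ⟨k, hk, hsk⟩ := mem_iUnion₂.1 hs
  obtain ⟨k', hk', hsk'⟩ := mem_iUnion₂.1 hs'
  rw [outHub_mix] at hsk hsk'
  by_cases hne : (outHub M X Bl₁ a).Nonempty
  · obtain ⟨x, hx⟩ := hne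
    exact (joined_symm hsym (key k hk.1 hk.2 x hx s hsk)).trans (key k' hk'.1 hk'.2 x hx s' hsk')
  · -- then there are no rails, or only one gate
    have hab : a = b := by
      by_contra hab
      have hlt : a < b := lt_of_le_of_ne (hk.1.trans hk.2) hab
      obtain ⟨p, hp, -⟩ := up_joined hM hX hW hg (K := Icc a b) (J := J)
        (ht a le_rfl hlt) (k := a) ⟨le_rfl, hlt.le⟩ (hJ a le_rfl hlt)
      exact hne ⟨p, hp.1⟩
    have e1 : k = a := by have := hk.1; have := hk.2; omega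
    have e2 : k' = a := by have := hk'.1; have := hk'.2; omega
    rw [e1] at hsk
    exact absurd ⟨s, hsk⟩ hne

include hM hg in
/-- An explored vertex of the outer rail corridor of section `s` inside `J` belongs to the outer hub
`s`, if the gate `s + 1` is not explored. -/
theorem EJ_rail {s : ℕ} (hK : ∀ k ∈ K, k % nc M ≠ (s + 1) % nc M)
    (hJ : CBox M (pout M s) (pout M (s + 1)) ⊆ J) {z : ℂ}
    (hz : z ∈ CBox M (pout M s) (pout M (s + 1)))
    (hE : z ∈ EJ M X K J (mB M X Bl₁ Wh₁ Bl₂) (mW M X Bl₁ Wh₁ Wh₂)) :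
    z ∈ outHub M X Bl₁ s := by
  have h1 : z ∈ EJ M X K J (mB M X Bl₁ Wh₁ Bl₂) (mW M X Bl₁ Wh₁ Wh₂) ∩ J := ⟨hE, hJ hz⟩
  rw [EJ_inter] at h1
  obtain ⟨k, hk, hzk⟩ := mem_iUnion₂.1 h1.1
  rw [outHub_mix] at hzk
  have h2 : z ∈ Ex M X Bl₁ Wh₁ := mem_iUnion.2 ⟨k, Or.inr hzk⟩
  rcases hg.up_Ex hM s hz h2 with h3 | h3
  · exact h3
  · exfalso
    have h4 := hg.outSub _ h3
    have h5 := hg.outSub _ hzk
    exact Set.disjoint_left.1 (disj_pout_pout hM (hK k hk)) h5 h4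

include hM hg in
/-- **Last exit of the door**: a crossing of the outer rail corridor of the first section of `J` has
a final part which starts at the white rim of the hub `s` and is off the explored set afterwards. -/
theorem door_exit {s : ℕ} {W : Set ℂ} (hWX : W ⊆ X) (hK : ∀ k ∈ K, k % nc M ≠ (s + 1) % nc M)
    (hJ : CBox M (pout M s) (pout M (s + 1)) ⊆ J)
    (h : CCr M X W (pout M s) (pout M (s + 1))) :
    ∃ (n : ℕ) (v : ℕ → ℂ), (∀ i < n, nbr X (v i) (v (i + 1))) ∧ v 0 ∈ outRim M X Bl₁ s ∧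
      (∀ i, 0 < i → i ≤ n → v i ∈ W ∧
        v i ∉ EJ M X K J (mB M X Bl₁ Wh₁ Bl₂) (mW M X Bl₁ Wh₁ Wh₂)) ∧
      (∀ i ≤ n, v i ∈ CBox M (pout M s) (pout M (s + 1))) ∧ 0 < n ∧
      v n ∈ ball (pout M (s + 1)) (sd M) ∧
      ‖pout M (s + 1) - pout M s‖ - sd M / 2 ≤
        (cio (pout M s) (pout M (s + 1)) * (v n - pout M s)).re := by
  obtain ⟨n, v, a1, a2, a3, a4⟩ := h
  have hB : ∀ i ≤ n, v i ∈ CBox M (pout M s) (pout M (s + 1)) := fun i hi => (a2 i hi).2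
  have h0 : v 0 ∈ outHub M X Bl₁ s :=
    core_sub_hub (seed_core ⟨hWX (a2 0 (Nat.zero_le n)).1,
      H995.start_mem hM (H995.pout_ne_succ hM s) (hB 0 (Nat.zero_le n)) a3⟩)
  have hn0 : v n ∈ ball (pout M (s + 1)) (sd M) :=
    H995.end_mem hM (H995.pout_ne_succ hM s) (hB n le_rfl) a4
  have hn1 : v n ∈ outHub M X Bl₁ (s + 1) :=
    core_sub_hub (seed_core ⟨hWX (a2 n le_rfl).1, hn0⟩)
  have hn : v n ∉ outHub M X Bl₁ s := fun hc =>
    Set.disjoint_left.1 (hg.disj_out_out hM s) hc hn1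
  obtain ⟨a, ha, ha1, ha2⟩ := exit_path (r := nbr X) a1 h0 hn
  refine ⟨n - a, fun i => v (a + i), fun i hi => a1 (a + i) (by omega), ha1, ?_, ?_, by omega,
    ?_, ?_⟩
  · intro i hi hin
    refine ⟨(a2 (a + i) (by omega)).1, fun hc => ?_⟩
    exact ha2 (a + i) (by omega) (by omega)
      (EJ_rail hM hg hK hJ (hB (a + i) (by omega)) hc)
  · intro i hi
    exact hB _ (by omega)
  · simp only [show a + (n - a) = n by omega]
    exact hn0
  · simp only [show a + (n - a) = n by omega]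
    exact a4

end Comb

end Vale.Agent.P148.R2.H678
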