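import Vale.Agent.P148.R2.H678.CombDef
import Vale.Agent.P148.R2.H592.Contr

/-!
# P148, row N1 (comb gates): hubs

Exploration of the cluster of a seed: stopping property, the colour of the rim, exits and entrances
of paths, containment from a circuit, connectivity of the core.
-/

open Set Relation Metric

namespace Vale.Agent.P148.R2.H678

open Vale.Agent.P148.R2.H592 (nbr nbr_symm ConnIn)
open Vale.Agent.P148.R2.H995 (nsup Circ)

section Hub

variable {α : Type*} {r : α → α → Prop} {S C C' : Set α}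

theorem seed_core : S ⊆ core r S C := fun s hs => ⟨s, hs, ReflTransGen.refl⟩

theorem core_step {u v : α} (hu : u ∈ core r S C) (h : r u v) (hv : v ∈ C) : v ∈ core r S C := by
  obtain ⟨s, hs, hsu⟩ := hu
  exact ⟨s, hs, hsu.tail ⟨h, hv⟩⟩

theorem core_sub_hub : core r S C ⊆ hub r S C := fun _ h => Or.inl h

theorem hub_step {u v : α} (hu : u ∈ core r S C) (h : r u v) : v ∈ hub r S C := Or.inr ⟨u, hu, h⟩

theorem rim_sub_hub : rim r S C ⊆ hub r S C := fun _ h => h.1

theorem rim_nbr {v : α} (hv : v ∈ rim r S C) : ∃ u ∈ core r S C, r u v := by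
  rcases hv.1 with h | h
  · exact absurd h hv.2
  · exact h

/-- The rim has the colour of the hub. -/
theorem rim_not {v : α} (hv : v ∈ rim r S C) : v ∉ C := by
  intro h
  obtain ⟨u, hu, huv⟩ := rim_nbr hv
  exact hv.2 (core_step hu huv h)

theorem hub_eq : hub r S C = core r S C ∪ rim r S C := by
  ext v
  constructor
  · intro h
    by_cases hv : v ∈ core r S C
    · exact Or.inl hv
    · exact Or.inr ⟨h, hv⟩
  · rintro (h | h)
    · exact core_sub_hub h
    · exact h.1

/-- Induction principle. -/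
theorem core_sub (A : Set α) (hS : S ⊆ A) (h : ∀ u ∈ A, ∀ v, r u v → v ∈ C → v ∈ A) :
    core r S C ⊆ A := by
  rintro v ⟨s, hs, hsv⟩
  induction hsv with
  | refl => exact hS hs
  | tail _ hab ih => exact h _ ih _ hab.1 hab.2

/-- A core point is a seed or belongs to `C`. -/
theorem core_mem {v : α} (hv : v ∈ core r S C) : v ∈ S ∨ v ∈ C :=
  core_sub (r := r) (C := C) (S ∪ C) (fun _ h => Or.inl h) (fun _ _ _ _ h => Or.inr h) hv

/-- **Stopping property** of the core. -/
theorem core_congr (h : ∀ v ∈ hub r S C, (v ∈ C' ↔ v ∈ C)) : core r S C' = core r S C := by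
  apply Subset.antisymm
  · exact core_sub _ seed_core fun u hu v huv hv => core_step hu huv ((h v (hub_step hu huv)).1 hv)
  · refine Subset.trans (b := core r S C ∩ core r S C') ?_ inter_subset_right
    exact core_sub _ (fun s hs => ⟨seed_core hs, seed_core hs⟩) fun u hu v huv hv =>
      ⟨core_step hu.1 huv hv, core_step hu.2 huv ((h v (hub_step hu.1 huv)).2 hv)⟩

/-- **Stopping property** of the hub. -/
theorem hub_congr (h : ∀ v ∈ hub r S C, (v ∈ C' ↔ v ∈ C)) : hub r S C' = hub r S C := by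
  unfold hub
  rw [core_congr h]

theorem rim_congr (h : ∀ v ∈ hub r S C, (v ∈ C' ↔ v ∈ C)) : rim r S C' = rim r S C := by
  unfold rim
  rw [core_congr h, hub_congr h]

/-- Locality: a hub which stays in `A` only depends on `C` in `A`. -/
theorem hub_congr_of_sub {A : Set α} (hA : hub r S C ⊆ A) (h : C' ∩ A = C ∩ A) :
    hub r S C' = hub r S C := by
  refine hub_congr fun v hv => ?_
  have hvA := hA hv
  constructor
  · intro hv'
    exact (h ▸ (⟨hv', hvA⟩ : v ∈ C' ∩ A) : v ∈ C ∩ A).1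
  · intro hv'
    exact (h.symm ▸ (⟨hv', hvA⟩ : v ∈ C ∩ A) : v ∈ C' ∩ A).1

/-- The hub grows with `C`. -/
theorem core_mono (h : C ⊆ C') : core r S C ⊆ core r S C' :=
  core_sub _ seed_core fun _ hu _ huv hv => core_step hu huv (h hv)

theorem hub_mono (h : C ⊆ C') : hub r S C ⊆ hub r S C' := by
  rintro v (hv | ⟨u, hu, huv⟩)
  · exact core_sub_hub (core_mono h hv)
  · exact hub_step (core_mono h hu) huv

/-- Two relations which agree at the core. -/
theorem core_congr_rel {r' : α → α → Prop}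
    (h : ∀ u ∈ core r S C, ∀ v, (r' u v ↔ r u v)) : core r' S C = core r S C := by
  apply Subset.antisymm
  · exact core_sub _ seed_core fun u hu v huv hv => core_step hu ((h u hu v).1 huv) hv
  · refine Subset.trans (b := core r S C ∩ core r' S C) ?_ inter_subset_right
    exact core_sub _ (fun s hs => ⟨seed_core hs, seed_core hs⟩) fun u hu v huv hv =>
      ⟨core_step hu.1 huv hv, core_step hu.2 ((h u hu.1 v).2 huv) hv⟩

theorem hub_congr_rel {r' : α → α → Prop}
    (h : ∀ u ∈ core r S C, ∀ v, (r' u v ↔ r u v)) : hub r' S C = hub r S C := by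
  unfold hub
  rw [core_congr_rel h]
  congr 1
  ext v
  constructor
  · rintro ⟨u, hu, huv⟩
    exact ⟨u, hu, (h u hu v).1 huv⟩
  · rintro ⟨u, hu, huv⟩
    exact ⟨u, hu, (h u hu v).2 huv⟩

/-! ### paths -/

/-- Last visit: a path from the hub to a point off the hub leaves it through the rim. -/
theorem exit_path {n : ℕ} {v : ℕ → α} (hv : ∀ i < n, r (v i) (v (i + 1)))
    (h0 : v 0 ∈ hub r S C) (hn : v n ∉ hub r S C) :
    ∃ a < n, v a ∈ rim r S C ∧ ∀ j, a < j → j ≤ n → v j ∉ hub r S C := by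
  classical
  set a := Nat.findGreatest (fun i => v i ∈ hub r S C) n with ha
  have h1 : v a ∈ hub r S C :=
    Nat.findGreatest_spec (P := fun i => v i ∈ hub r S C) (Nat.zero_le n) h0
  have h2 : a ≤ n := Nat.findGreatest_le n
  have h3 : a < n := lt_of_le_of_ne h2 fun h => hn (h ▸ h1)
  have h4 : ∀ j, a < j → j ≤ n → v j ∉ hub r S C := fun j hj hjn =>
    Nat.findGreatest_is_greatest (P := fun i => v i ∈ hub r S C) hj hjn
  exact ⟨a, h3, ⟨h1, fun hc => h4 (a + 1) (Nat.lt_succ_self a) h3 (hub_step hc (hv a h3))⟩, h4⟩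

/-- First visit. -/
theorem enter_path (hr : ∀ a b, r a b → r b a) {n : ℕ} {v : ℕ → α}
    (hv : ∀ i < n, r (v i) (v (i + 1))) (h0 : v 0 ∉ hub r S C) (hn : v n ∈ hub r S C) :
    ∃ b, 0 < b ∧ b ≤ n ∧ v b ∈ rim r S C ∧ ∀ j < b, v j ∉ hub r S C := by
  classical
  have hex : ∃ b, v b ∈ hub r S C := ⟨n, hn⟩
  set b := Nat.find hex with hb
  have h1 : v b ∈ hub r S C := Nat.find_spec hex
  have h2 : b ≤ n := Nat.find_min' hex hn
  have h3 : 0 < b := by
    rcases Nat.eq_zero_or_pos b with h | h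
    · rw [h] at h1; exact absurd h1 h0
    · exact h
  have h4 : ∀ j < b, v j ∉ hub r S C := fun j hj => Nat.find_min hex hj
  refine ⟨b, h3, h2, ⟨h1, fun hc => h4 (b - 1) (by omega) ?_⟩, h4⟩
  have h5 := hv (b - 1) (by omega)
  rw [Nat.sub_add_cancel h3] at h5
  exact hub_step hc (hr _ _ h5)

/-- Between two disjoint hubs: the part of a path after the last visit of the first one and before
the next visit of the second one. -/
theorem between {S' D : Set α} (hr : ∀ a b, r a b → r b a) {n : ℕ} {v : ℕ → α}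
    (hv : ∀ i < n, r (v i) (v (i + 1))) (hd : Disjoint (hub r S C) (hub r S' D))
    (h0 : v 0 ∈ hub r S C) (hn : v n ∈ hub r S' D) :
    ∃ a b, a < b ∧ b ≤ n ∧ v a ∈ rim r S C ∧ v b ∈ rim r S' D ∧
      ∀ j, a < j → j < b → v j ∉ hub r S C ∧ v j ∉ hub r S' D := by
  have hn' : v n ∉ hub r S C := fun h => (Set.disjoint_left.1 hd) h hn
  obtain ⟨a, ha, ha1, ha2⟩ := exit_path hv h0 hn'
  have h0' : v (a + 0) ∉ hub r S' D := fun h => (Set.disjoint_left.1 hd) ha1.1 h
  obtain ⟨b, hb0, hbn, hb1, hb2⟩ := enter_path (r := r) (S := S') (C := D) hr (n := n - a)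
    (v := fun i => v (a + i)) (fun i hi => hv (a + i) (by omega)) h0'
    (by simp only [show a + (n - a) = n by omega]; exact hn)
  refine ⟨a, a + b, by omega, by omega, ha1, hb1, fun j hj hjb => ⟨ha2 j hj (by omega), ?_⟩⟩
  have := hb2 (j - a) (by omega)
  simp only [show a + (j - a) = j by omega] at this
  exact this

/-- A core point is reached from a seed by a path in `C`. -/
theorem core_path {v : α} (hv : v ∈ core r S C) :
    ∃ (m : ℕ) (w : ℕ → α), w 0 ∈ S ∧ w m = v ∧ (∀ i < m, r (w i) (w (i + 1))) ∧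
      ∀ i, 0 < i → i ≤ m → w i ∈ C := by
  obtain ⟨s, hs, hsv⟩ := hv
  induction hsv with
  | refl => exact ⟨0, fun _ => s, hs, rfl, fun i hi => absurd hi (Nat.not_lt_zero i), fun i h1 h2 => by
      omega⟩
  | @tail b c _ hbc ih =>
    obtain ⟨m, w, h0, hm, h1, h2⟩ := ih
    refine ⟨m + 1, fun i => if i ≤ m then w i else c, ?_, ?_, ?_, ?_⟩
    · simpa using h0
    · simp
    · intro i hi
      by_cases him : i < m
      · simp only [show i ≤ m by omega, if_true, show i + 1 ≤ m by omega]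
        exact h1 i him
      · have : i = m := by omega
        subst this
        simp only [le_refl, if_true, show ¬ i + 1 ≤ i by omega, if_false]
        rw [hm]
        exact hbc.1
    · intro i hi him
      by_cases him' : i ≤ m
      · simp only [him', if_true]
        exact h2 i hi him'
      · simp only [him', if_false]
        exact hbc.2

/-- A hub point is reached from a seed by a path whose inner points are in `C`. -/
theorem hub_path {v : α} (hv : v ∈ hub r S C) :
    ∃ (m : ℕ) (w : ℕ → α), w 0 ∈ S ∧ w m = v ∧ (∀ i < m, r (w i) (w (i + 1))) ∧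
      ∀ i, 0 < i → i < m → w i ∈ C := by
  rcases hv with hv | ⟨u, hu, huv⟩
  · obtain ⟨m, w, h0, hm, h1, h2⟩ := core_path hv
    exact ⟨m, w, h0, hm, h1, fun i hi him => h2 i hi him.le⟩
  · obtain ⟨m, w, h0, hm, h1, h2⟩ := core_path hu
    refine ⟨m + 1, fun i => if i ≤ m then w i else v, ?_, ?_, ?_, ?_⟩
    · simpa using h0
    · simp
    · intro i hi
      by_cases him : i < m
      · simp only [show i ≤ m by omega, if_true, show i + 1 ≤ m by omega]
        exact h1 i him
      · have : i = m := by omega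
        subst this
        simp only [le_refl, if_true, show ¬ i + 1 ≤ i by omega, if_false]
        rw [hm]
        exact huv
    · intro i hi him
      simp only [show i ≤ m by omega, if_true]
      exact h2 i hi (by omega)

/-- The core of a connected seed is connected. -/
theorem core_conn (hr : ∀ a b, r a b → r b a)
    (hS : ∀ s ∈ S, ∀ s' ∈ S, ReflTransGen (fun a b => r a b ∧ a ∈ S ∧ b ∈ S) s s') {u v : α}
    (hu : u ∈ core r S C) (hv : v ∈ core r S C) :
    ReflTransGen (fun a b => r a b ∧ a ∈ core r S C ∧ b ∈ core r S C) u v := by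
  have key : ∀ w ∈ core r S C, ∃ s ∈ S,
      ReflTransGen (fun a b => r a b ∧ a ∈ core r S C ∧ b ∈ core r S C) s w := by
    rintro w ⟨s, hs, hsw⟩
    refine ⟨s, hs, ?_⟩
    induction hsw with
    | refl => exact ReflTransGen.refl
    | @tail b c hsb hbc ih =>
      exact ih.tail ⟨hbc.1, ⟨s, hs, hsb⟩, ⟨s, hs, hsb.tail hbc⟩⟩
  have symm : ∀ a b, ReflTransGen (fun a b => r a b ∧ a ∈ core r S C ∧ b ∈ core r S C) a b →
      ReflTransGen (fun a b => r a b ∧ a ∈ core r S C ∧ b ∈ core r S C) b a := by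
    intro a b hab
    induction hab with
    | refl => exact ReflTransGen.refl
    | tail _ hbc ih => exact ReflTransGen.head ⟨hr _ _ hbc.1, hbc.2.2, hbc.2.1⟩ ih
  obtain ⟨s, hs, hsu⟩ := key u hu
  obtain ⟨s', hs', hsv⟩ := key v hv
  have h1 : ReflTransGen (fun a b => r a b ∧ a ∈ core r S C ∧ b ∈ core r S C) s s' :=
    ReflTransGen.mono (fun a b (h : r a b ∧ a ∈ S ∧ b ∈ S) =>
      ⟨h.1, seed_core h.2.1, seed_core h.2.2⟩) _ _ (hS s hs s' hs')
  exact (symm _ _ hsu).trans (h1.trans hsv)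

end Hub

/-! ### mixed colourings -/

section Mix

variable {α : Type*} {E W₁ W₂ : Set α}

theorem mem_mix {v : α} : v ∈ mix E W₁ W₂ ↔ (v ∈ W₁ ∧ v ∈ E) ∨ (v ∈ W₂ ∧ v ∉ E) := Iff.rfl

theorem mem_mix_of_mem {v : α} (h : v ∈ E) : v ∈ mix E W₁ W₂ ↔ v ∈ W₁ := by
  rw [mem_mix]; tauto

theorem mem_mix_of_not_mem {v : α} (h : v ∉ E) : v ∈ mix E W₁ W₂ ↔ v ∈ W₂ := by
  rw [mem_mix]; tauto

end Mix

/-! ### containment from a circuit -/

/-- If the rim colour has a circuit in the annulus then the hub stays inside. -/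
theorem hub_sub_of_circ {X W S C : Set ℂ} {p : ℂ} {r R : ℝ} (hC : Circ X W p r R)
    (hS : ∀ s ∈ S, nsup (s - p) < r) (hWC : ∀ z ∈ W, z ∉ C) :
    hub (nbr X) S C ⊆ {w | nsup (w - p) ≤ R} := by
  intro v hv
  by_contra hcon
  have hR : R < nsup (v - p) := not_le.1 hcon
  obtain ⟨K, h1, -, -, h4, -, h6⟩ := hC
  obtain ⟨m, w, w0, wm, w1, w2⟩ := hub_path hv
  obtain ⟨i, hi, hK⟩ := h6 m w w1 (hS _ w0).le (by rw [wm]; exact hR.le)
  rcases Nat.eq_zero_or_pos i with h | h
  · subst h
    exact absurd (h4 _ hK).1 (not_le.2 (hS _ w0))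
  · rcases hi.lt_or_eq with h' | h'
    · exact hWC _ (h1 hK) (w2 i h h')
    · subst h'
      rw [wm] at hK
      exact absurd (h4 _ hK).2 (not_le.2 hR)

theorem nsup_lt_of_ball {z p : ℂ} {r : ℝ} (h : z ∈ ball p r) : nsup (z - p) < r := by
  rw [mem_ball, Complex.dist_eq] at h
  exact max_lt ((Complex.abs_re_le_norm _).trans_lt h) ((Complex.abs_im_le_norm _).trans_lt h)

theorem inGood_of_circ {M : ℕ} {X Bl Wh : Set ℂ} {k : ℕ} (h : Circ X Bl (pin M k) (sd M) (hb M))
    (hd : Disjoint Bl Wh) : InGood M X Wh k :=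
  hub_sub_of_circ h (fun _ hs => nsup_lt_of_ball hs.2) fun _ hz => Set.disjoint_left.1 hd hz

theorem outGood_of_circ {M : ℕ} {X Bl Wh : Set ℂ} {k : ℕ} (h : Circ X Wh (pout M k) (sd M) (hb M))
    (hd : Disjoint Bl Wh) : OutGood M X Bl k :=
  hub_sub_of_circ h (fun _ hs => nsup_lt_of_ball hs.2) fun _ hz => Set.disjoint_right.1 hd hz

/-- The core of a hub with a ball as seed is connected. -/
theorem connIn_core {X C : Set ℂ} (hX : X.Finite) (p : ℂ) (r : ℝ) :
    ConnIn X (core (nbr X) (X ∩ ball p r) C) := by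
  refine ⟨?_, fun u hu v hv => ?_⟩
  · exact core_sub (r := nbr X) (C := C) X inter_subset_left fun _ _ _ h _ => h.2.1
  · exact core_conn (fun _ _ => nbr_symm) (H592.connIn_ball hX p r).2 hu hv

theorem hub_sub_X {X C : Set ℂ} {p : ℂ} {r : ℝ} : hub (nbr X) (X ∩ ball p r) C ⊆ X := by
  rintro v (hv | ⟨u, hu, huv⟩)
  · exact core_sub (r := nbr X) (C := C) X inter_subset_left (fun _ _ _ h _ => h.2.1) hv
  · exact huv.2.1

end Vale.Agent.P148.R2.H678
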