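import Vale.Agent.P148.R2.H995.Ring

/-!
# P148: winding numbers of the two sides of a strand (orientation of the comb ring)

`l i`, `r i` the left and right vertices of a closed strand of ccw Delaunay triangles:
`wd (right side) - wd (left side) = sum of the windings of the triangles ≥ 0`.
-/

open Set Metric Complex
open scoped unitInterval ComplexConjugate

namespace Vale.Agent.P148.R2.H678

open H592 H995

/-! ### Delaunay edges -/

theorem sg_zero (a b : ℂ) : sg a b 0 = a := by simp [sg]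

theorem sg_one (a b : ℂ) : sg a b 1 = b := by simp [sg]

theorem sg_same (a : ℂ) (t : ℝ) : sg a a t = a := by simp [sg]

theorem sg_symm (a b : ℂ) (t : ℝ) : sg a b t = sg b a (1 - t) := by
  unfold sg; push_cast; ring

/-- A Delaunay edge contains no other site. -/
theorem vertex_off {X : Set ℂ} {u v a : ℂ} (h : nbr X u v) (ha : a ∈ X) (h1 : a ≠ u) (h2 : a ≠ v)
    {s : ℝ} (hs0 : 0 ≤ s) (hs1 : s ≤ 1) : sg u v s ≠ a := by
  intro he
  obtain ⟨hu, hv, huv, z, hz1, hz2⟩ := h
  have hs0' : 0 < s := by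
    rcases hs0.lt_or_eq with h0 | h0
    · exact h0
    · exact absurd (by rw [← he, ← h0, sg_zero]) h1
  have hs1' : s < 1 := by
    rcases hs1.lt_or_eq with h0 | h0
    · exact h0
    · exact absurd (by rw [← he, h0, sg_one]) h2
  have eqv : Complex.normSq (v - z) ≤ Complex.normSq (u - z) := normSq_le_of_vcell hz2 hu
  have h3 := normSq_seg_lt huv hs0' hs1' le_rfl eqv
  have h4 := normSq_le_of_vcell hz1 ha
  rw [← he] at h4
  unfold sg at h4
  exact absurd h3 (not_lt.2 h4)

/-- Two Delaunay edges at a site only share the site. -/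
theorem share_off {X : Set ℂ} {u v w : ℂ} (h : nbr X u v) (h' : nbr X u w) (hvw : v ≠ w)
    {s t : ℝ} (hs0 : 0 < s) (hs1 : s ≤ 1) (ht0 : 0 ≤ t) (ht1 : t ≤ 1) : sg u v s ≠ sg u w t := by
  intro he
  have huv : u ≠ v := h.2.2.1
  have huw : u ≠ w := h'.2.2.1
  have e1 : (s : ℂ) * (v - u) = t * (w - u) := by unfold sg at he; exact add_left_cancel he
  have hs : (s : ℂ) ≠ 0 := by exact_mod_cast hs0.ne'
  have ht0' : 0 < t := by
    rcases ht0.lt_or_eq with h0 | h0
    · exact h0
    · exfalso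
      rw [← h0, ofReal_zero, zero_mul] at e1
      rcases mul_eq_zero.1 e1 with h1 | h1
      · exact hs h1
      · exact huv (sub_eq_zero.1 h1).symm
  have ht : (t : ℂ) ≠ 0 := by exact_mod_cast ht0'.ne'
  rcases le_total s t with hst | hst
  · refine vertex_off h h'.2.1 huw.symm hvw.symm (s := s / t) (by positivity)
      ((div_le_one ht0').2 hst) ?_
    unfold sg
    push_cast
    rw [div_mul_eq_mul_div, e1, mul_div_assoc, mul_comm, div_mul_cancel₀ _ ht]
    ring
  · refine vertex_off h' h.2.1 huv.symm hvw (s := t / s) (by positivity)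
      ((div_le_one hs0).2 hst) ?_
    unfold sg
    push_cast
    rw [div_mul_eq_mul_div, ← e1, mul_div_assoc, mul_comm, div_mul_cancel₀ _ hs]
    ring

/-- A half-open edge with end point off `B` avoids the edges between points of `B`. -/
theorem edge_off {X : Set ℂ} (hX : Three X) {B : Set ℂ} (hBX : B ⊆ X) {u v x y : ℂ}
    (h : nbr X u v) (hv : v ∉ B) (hx : x ∈ B) (hy : y ∈ B) (hxy : nbr X x y ∨ x = y) {s t : ℝ}
    (hs0 : 0 < s) (hs1 : s ≤ 1) (ht0 : 0 ≤ t) (ht1 : t ≤ 1) : sg u v s ≠ sg x y t := by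
  have hvx : v ≠ x := fun h0 => hv (h0 ▸ hx)
  have hvy : v ≠ y := fun h0 => hv (h0 ▸ hy)
  rcases hxy with hxy | rfl
  · by_cases hux : u = x
    · subst hux
      exact share_off h hxy hvy hs0 hs1 ht0 ht1
    by_cases huy : u = y
    · subst huy
      rw [sg_symm x u]
      exact share_off h (nbr_symm hxy) hvx hs0 hs1 (by linarith) (by linarith)
    exact seg_disjoint hX h hxy hux huy hvx hvy hs0.le hs1 ht0 ht1
  · rw [sg_same]
    intro he
    by_cases hux : x = u
    · subst hux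
      have e1 : (s : ℂ) * (v - x) = 0 := by
        have : x + (s : ℂ) * (v - x) = x + 0 := by rw [add_zero]; exact he
        exact add_left_cancel this
      rcases mul_eq_zero.1 e1 with h1 | h1
      · exact hs0.ne' (by exact_mod_cast h1)
      · exact h.2.2.1 (sub_eq_zero.1 h1).symm
    · exact vertex_off h (hBX hx) hux hvx.symm hs0.le hs1 he

/-- A closed edge with end points off `B` avoids the edges between points of `B`. -/
theorem edge_off' {X : Set ℂ} (hX : Three X) {B : Set ℂ} (hBX : B ⊆ X) {u v x y : ℂ}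
    (h : nbr X u v) (hu : u ∉ B) (hv : v ∉ B) (hx : x ∈ B) (hy : y ∈ B)
    (hxy : nbr X x y ∨ x = y) {s t : ℝ}
    (hs0 : 0 ≤ s) (hs1 : s ≤ 1) (ht0 : 0 ≤ t) (ht1 : t ≤ 1) : sg u v s ≠ sg x y t := by
  rcases hs0.lt_or_eq with h0 | h0
  · exact edge_off hX hBX h hv hx hy hxy h0 hs1 ht0 ht1
  · rw [← h0, sg_symm u v]
    exact edge_off hX hBX (nbr_symm h) hu hx hy hxy (by norm_num) (by norm_num) ht0 ht1

/-! ### windings of chains with repetitions -/

variable {K : ℕ} {n : ℕ → ℕ} {v : ℕ → ℕ → ℂ} {w : ℕ → ℂ}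

theorem wd_path' {X : Set ℂ} (hX : Three X) (hP : Pieces K n v w) {B : Set ℂ} (hBX : B ⊆ X)
    (hv : ∀ k < K, ∀ i < n k, nbr X (v k i) (v k (i + 1)) ∨ v k i = v k (i + 1))
    (hvB : ∀ k < K, ∀ i ≤ n k, v k i ∈ B) {m : ℕ} {u : ℕ → ℂ}
    (hu : ∀ i < m, nbr X (u i) (u (i + 1))) (huB : ∀ i ≤ m, u i ∉ B) :
    wd K n v (u 0) = wd K n v (u m) := by
  rcases Nat.eq_zero_or_pos m with rfl | hm
  · rfl
  obtain ⟨m, rfl⟩ := Nat.exists_eq_succ_of_ne_zero hm.ne'
  obtain ⟨γ, hγ⟩ := exists_curve u m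
  have h1 := wd_const hP (f := fun s => γ s) (by fun_prop) (by
    intro s k hk i hi t ht0 ht1 he
    obtain ⟨j, hj, x, hx0, hx1, e1⟩ := hγ s
    refine edge_off' hX hBX (hu j (by omega)) (huB _ (by omega)) (huB _ (by omega))
      (hvB k hk i hi.le) (hvB k hk (i + 1) hi) (hv k hk i hi) hx0 hx1 ht0 ht1 ?_
    rw [← e1]
    exact he)
  simpa using h1

/-- The half edge. -/
theorem wd_half {X : Set ℂ} (hX : Three X) (hP : Pieces K n v w) {B : Set ℂ} (hBX : B ⊆ X)
    (hv : ∀ k < K, ∀ i < n k, nbr X (v k i) (v k (i + 1)) ∨ v k i = v k (i + 1))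
    (hvB : ∀ k < K, ∀ i ≤ n k, v k i ∈ B) {a b : ℂ} (h : nbr X a b) (hb : b ∉ B) :
    wd K n v b = wd K n v (sg a b (1 / 2)) := by
  have h1 := wd_const hP (f := fun s => sg a b (1 - (s : ℝ) / 2)) (by unfold sg; fun_prop) (by
    intro s k hk i hi t ht0 ht1
    exact edge_off hX hBX h hb (hvB k hk i hi.le) (hvB k hk (i + 1) hi) (hv k hk i hi)
      (by linarith [s.2.2]) (by linarith [s.2.1]) ht0 ht1)
  have e0 : sg a b (1 - ((0 : I) : ℝ) / 2) = b := by
    rw [Set.Icc.coe_zero, zero_div, sub_zero, sg_one]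
  have e1 : sg a b (1 - ((1 : I) : ℝ) / 2) = sg a b (1 / 2) := by
    rw [Set.Icc.coe_one]; norm_num
  rw [e0, e1] at h1
  exact h1

/-- The middle of an edge with one end off `B` is off the chain. -/
theorem mid_off {X : Set ℂ} (hX : Three X) {B : Set ℂ} (hBX : B ⊆ X)
    (hv : ∀ k < K, ∀ i < n k, nbr X (v k i) (v k (i + 1)) ∨ v k i = v k (i + 1))
    (hvB : ∀ k < K, ∀ i ≤ n k, v k i ∈ B) {a b : ℂ} (h : nbr X a b) (hb : b ∉ B) {k i : ℕ}
    (hk : k < K) (hi : i < n k) {t : ℝ} (ht0 : 0 ≤ t) (ht1 : t ≤ 1) :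
    sg a b (1 / 2) ≠ sg (v k i) (v k (i + 1)) t :=
  edge_off hX hBX h hb (hvB k hk i hi.le) (hvB k hk (i + 1) hi) (hv k hk i hi)
    (by norm_num) (by norm_num) ht0 ht1

/-! ### the triangle -/

/-- The point `z` is off the segment. -/
def Off (z a b : ℂ) : Prop := ∀ t : ℝ, 0 ≤ t → t ≤ 1 → z ≠ sg a b t

theorem Off.symm {z a b : ℂ} (h : Off z a b) : Off z b a := fun t h0 h1 => by
  rw [sg_symm]; exact h _ (by linarith) (by linarith)

theorem Off.left {z a b : ℂ} (h : Off z a b) : a ≠ z := fun he => h 0 le_rfl zero_le_one (by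
  rw [sg_zero, he])

theorem Off.right {z a b : ℂ} (h : Off z a b) : b ≠ z := h.symm.left

theorem ang_lt {z a b : ℂ} (h : Off z a b) : -Real.pi < ang z a b ∧ ang z a b < Real.pi := by
  have h1 := slit_of_off h
  have h2 := Complex.mem_slitPlane_iff_arg.1 h1
  refine ⟨Complex.neg_pi_lt_arg _, lt_of_le_of_ne (Complex.arg_le_pi _) h2.1⟩

theorem ang_symm {z a b : ℂ} (h : Off z a b) : ang z b a = -ang z a b := by
  have h1 := slit_of_off h
  have h2 := Complex.mem_slitPlane_iff_arg.1 h1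
  unfold ang
  rw [← inv_div (b - z) (a - z), Complex.arg_inv, if_neg h2.1]

theorem ang_self {z a : ℂ} (h : a ≠ z) : ang z a a = 0 := by
  unfold ang
  rw [div_self (sub_ne_zero.2 h), Complex.arg_one]

/-- The sign of an angle. -/
theorem im_neg_of_ang {z a b : ℂ} (ha : a ≠ z) (h : ang z a b < 0) :
    (conj (a - z) * (b - z)).im < 0 := by
  have h1 : ((b - z) / (a - z)).im < 0 := Complex.arg_neg_iff.1 h
  have h2 : 0 < Complex.normSq (a - z) := Complex.normSq_pos.2 (sub_ne_zero.2 ha)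
  have e : conj (a - z) * (b - z) = (Complex.normSq (a - z) : ℂ) * ((b - z) / (a - z)) := by
    rw [← Complex.mul_conj]
    have h3 : a - z ≠ 0 := sub_ne_zero.2 ha
    field_simp
  rw [e, Complex.im_ofReal_mul]
  exact mul_neg_of_pos_of_neg h2 h1

/-- **The winding of a ccw triangle is nonnegative.** -/
theorem tri_nonneg {z a b c : ℂ} (hab : Off z a b) (hbc : Off z b c) (hca : Off z c a)
    (hcr : 0 < cr a b c) : 0 ≤ ang z a b + ang z b c + ang z c a := by
  obtain ⟨a1, a2⟩ := ang_lt hab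
  obtain ⟨b1, b2⟩ := ang_lt hbc
  obtain ⟨c1, c2⟩ := ang_lt hca
  have hpi := Real.pi_pos
  -- the sum is a multiple of `2 π`
  have h1 : ((ang z a b + ang z b c + ang z c a : ℝ) : Real.Angle) = 0 := by
    rw [Real.Angle.coe_add, Real.Angle.coe_add, ang_coe hab.left hab.right,
      ang_coe hbc.left hbc.right, ang_coe hca.left hca.right]
    abel
  obtain ⟨m, hm⟩ := Real.Angle.coe_eq_zero_iff.1 h1
  rw [zsmul_eq_mul] at hm
  by_contra hcon
  rw [not_le] at hcon
  have hm0 : m < 0 := by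
    by_contra h
    rw [not_lt] at h
    have : (0 : ℝ) ≤ m := by exact_mod_cast h
    have : 0 ≤ (m : ℝ) * (2 * Real.pi) := by positivity
    linarith
  have hm1 : (m : ℝ) ≤ -1 := by exact_mod_cast (show m ≤ -1 by omega)
  have hsum : ang z a b + ang z b c + ang z c a ≤ -(2 * Real.pi) := by
    rw [← hm]; nlinarith
  have h3 := im_neg_of_ang hab.left (show ang z a b < 0 by linarith)
  have h4 := im_neg_of_ang hbc.left (show ang z b c < 0 by linarith)
  have h5 := im_neg_of_ang hca.left (show ang z c a < 0 by linarith)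
  have e : cr a b c = (conj (a - z) * (b - z)).im + (conj (b - z) * (c - z)).im +
      (conj (c - z) * (a - z)).im := by
    unfold cr
    simp only [mul_im, conj_re, conj_im, sub_re, sub_im]
    ring
  linarith

/-! ### the two sides of a strand -/

/-- One step: the triangle `(l, r, a)`. -/
theorem step_identity {z l r a l' r' : ℂ} (hlr : Off z l r) (hra : Off z r a) (hal : Off z a l)
    (h : (l' = a ∧ r' = r) ∨ (l' = l ∧ r' = a)) :
    ang z r r' - ang z l l' = (ang z l r + ang z r a + ang z a l) + ang z l' r' - ang z l r := by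
  rcases h with ⟨rfl, rfl⟩ | ⟨rfl, rfl⟩
  · rw [ang_self hlr.right, ang_symm hal.symm, ang_symm hra]
    ring
  · rw [ang_self hlr.left, ang_symm hal.symm]
    ring

/-- **The two sides of a closed strand.** -/
theorem sides_le {N : ℕ} {l r a : ℕ → ℂ} {z : ℂ} (hlr : ∀ i < N, Off z (l i) (r i))
    (hra : ∀ i < N, Off z (r i) (a i)) (hal : ∀ i < N, Off z (a i) (l i))
    (hcr : ∀ i < N, 0 < cr (l i) (r i) (a i))
    (hst : ∀ i < N, (l (i + 1) = a i ∧ r (i + 1) = r i) ∨ (l (i + 1) = l i ∧ r (i + 1) = a i))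
    (hl : l N = l 0) (hr : r N = r 0) :
    ∑ i ∈ Finset.range N, ang z (l i) (l (i + 1)) ≤ ∑ i ∈ Finset.range N, ang z (r i) (r (i + 1)) := by
  have h1 : ∀ m ≤ N, ∑ i ∈ Finset.range m, ang z (l i) (l (i + 1)) + (ang z (l m) (r m) -
      ang z (l 0) (r 0)) ≤ ∑ i ∈ Finset.range m, ang z (r i) (r (i + 1)) := by
    intro m
    induction m with
    | zero => intro _; simp
    | succ m ih =>
      intro hm
      have h2 := ih (by omega)
      have h3 := step_identity (hlr m (by omega)) (hra m (by omega)) (hal m (by omega))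
        (hst m (by omega))
      have h4 := tri_nonneg (hlr m (by omega)) (hra m (by omega)) (hal m (by omega))
        (hcr m (by omega))
      rw [Finset.sum_range_succ, Finset.sum_range_succ]
      linarith
  have h2 := h1 N le_rfl
  rw [hl, hr, sub_self, add_zero] at h2
  exact h2

/-! ### a generic point near the middle of an edge -/

/-- The points of an edge. -/
def Eg (a b : ℂ) : Set ℂ := (fun t : ℝ => sg a b t) '' Icc 0 1

theorem isClosed_Eg (a b : ℂ) : IsClosed (Eg a b) :=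
  (isCompact_Icc.image (by unfold sg; fun_prop)).isClosed

theorem off_iff {z a b : ℂ} : Off z a b ↔ z ∉ Eg a b := by
  unfold Off Eg
  constructor
  · rintro h ⟨t, ⟨h0, h1⟩, he⟩
    exact h t h0 h1 he.symm
  · intro h t h0 h1 he
    exact h ⟨t, ⟨h0, h1⟩, he.symm⟩

/-- Near a point off finitely many edges, except an edge `[a, b]` containing it, there is a point off
all of them. -/
theorem exists_near {F : Set (ℂ × ℂ)} (hF : F.Finite) {a b : ℂ} (hab : a ≠ b)
    (hm : ∀ p ∈ F, Off (sg a b (1 / 2)) p.1 p.2) {δ : ℝ} (hδ : 0 < δ) :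
    ∃ z, dist z (sg a b (1 / 2)) < δ ∧ (∀ p ∈ F, Off z p.1 p.2) ∧ Off z a b ∧
      ∀ t : ℝ, 0 ≤ t → t ≤ 1 → ∀ p ∈ F, Off (sg (sg a b (1 / 2)) z t) p.1 p.2 := by
  set m := sg a b (1 / 2) with hmdef
  have hcl : IsClosed (⋃ p ∈ F, Eg p.1 p.2) :=
    hF.isClosed_biUnion fun p _ => isClosed_Eg p.1 p.2
  have hmem : m ∈ (⋃ p ∈ F, Eg p.1 p.2)ᶜ := by
    simp only [mem_compl_iff, mem_iUnion, not_exists]
    intro p hp h
    exact off_iff.1 (hm p hp) h
  obtain ⟨ρ, hρ, hball⟩ := Metric.isOpen_iff.1 hcl.isOpen_compl m hmem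
  set ε : ℝ := min (ρ / 2) (δ / 2) with hε
  have hε0 : 0 < ε := lt_min (by positivity) (by positivity)
  have hn : 0 < ‖b - a‖ := norm_pos_iff.2 (sub_ne_zero.2 hab.symm)
  have hnc : (‖b - a‖ : ℂ) ≠ 0 := by exact_mod_cast hn.ne'
  set z : ℂ := m + ((ε / ‖b - a‖ : ℝ) : ℂ) * (Complex.I * (b - a)) with hz
  have hdz : dist z m = ε := by
    rw [dist_eq, hz, add_sub_cancel_left, norm_mul, norm_mul, norm_I, one_mul, norm_real,
      Real.norm_of_nonneg (by positivity), div_mul_cancel₀ _ hn.ne']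
  have hzδ : dist z m < δ := by rw [hdz]; linarith [min_le_right (ρ / 2) (δ / 2)]
  have hzρ : ∀ t : ℝ, 0 ≤ t → t ≤ 1 → sg m z t ∈ ball m ρ := by
    intro t h0 h1
    rw [mem_ball, dist_eq]
    have e1 : sg m z t - m = (t : ℂ) * (z - m) := by unfold sg; ring
    rw [e1, norm_mul, norm_real, Real.norm_of_nonneg h0, ← dist_eq, hdz]
    have := min_le_left (ρ / 2) (δ / 2)
    nlinarith
  have hoff : ∀ t : ℝ, 0 ≤ t → t ≤ 1 → ∀ p ∈ F, Off (sg m z t) p.1 p.2 := by
    intro t h0 h1 p hp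
    rw [off_iff]
    intro hc
    exact hball (hzρ t h0 h1) (mem_biUnion hp hc)
  refine ⟨z, hzδ, fun p hp => ?_, ?_, hoff⟩
  · have := hoff 1 zero_le_one le_rfl p hp
    rwa [sg_one] at this
  · intro t _ _ he
    have hba : b - a ≠ 0 := sub_ne_zero.2 hab.symm
    have e1 : ((1 / 2 - t : ℝ) : ℂ) * (b - a) + ((ε / ‖b - a‖ : ℝ) : ℂ) * (Complex.I * (b - a))
        = 0 := by
      have : z - sg a b t = 0 := sub_eq_zero.2 he
      rw [hz, hmdef] at this
      unfold sg at this
      push_cast at this ⊢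
      linear_combination this
    have e2 : ((1 / 2 - t : ℝ) : ℂ) + ((ε / ‖b - a‖ : ℝ) : ℂ) * Complex.I = 0 := by
      have : (((1 / 2 - t : ℝ) : ℂ) + ((ε / ‖b - a‖ : ℝ) : ℂ) * Complex.I) * (b - a) = 0 := by
        linear_combination e1
      exact (mul_eq_zero.1 this).resolve_right hba
    have e3 := congrArg Complex.im e2
    simp only [add_im, ofReal_im, mul_im, ofReal_re, I_im, I_re, mul_one, mul_zero, add_zero,
      zero_add, zero_im] at e3
    have : 0 < ε / ‖b - a‖ := by positivity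
    linarith

end Vale.Agent.P148.R2.H678
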