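import Vale.Agent.P148.R2.H678.Ori1

/-!
# P148: a closed strand with the white side outside is positively oriented (point form)
-/

open Set Metric Complex
open scoped unitInterval ComplexConjugate

namespace Vale.Agent.P148.R2.H678

open H592 H995

theorem sum_blocks (f : ℕ → ℝ) {t : ℕ → ℕ} (h0 : t 0 = 0) (K : ℕ)
    (ht : ∀ k < K, t k ≤ t (k + 1)) :
    ∑ k ∈ Finset.range K, ∑ i ∈ Finset.range (t (k + 1) - t k), f (t k + i) =
      ∑ j ∈ Finset.range (t K), f j := by
  induction K with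
  | zero => simp [h0]
  | succ K ih =>
    have h1 := ht K (Nat.lt_succ_self K)
    rw [Finset.sum_range_succ, ih fun k hk => ht k (by omega)]
    conv_rhs => rw [← Nat.add_sub_of_le h1]
    rw [Finset.sum_range_add]

theorem ang_neg {z a b : ℂ} (h : (conj (a - z) * (b - z)).im < 0) : ang z a b < 0 := by
  have ha : a - z ≠ 0 := by intro h0; rw [h0] at h; simp at h
  have h1 : ((b - z) / (a - z)).im < 0 := by
    have e : (b - z) / (a - z) = ((normSq (a - z))⁻¹ : ℝ) * (conj (a - z) * (b - z)) := by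
      rw [div_eq_mul_inv, Complex.inv_def]
      push_cast
      ring
    rw [e, Complex.im_ofReal_mul]
    have h2 : 0 < (normSq (a - z))⁻¹ := inv_pos.2 (normSq_pos.2 ha)
    exact mul_neg_of_pos_of_neg h2 h
  exact Complex.arg_neg_iff.2 h1

/-- The winding of a chain is the same at the two ends of a segment off its edges. -/
theorem wd_near {K : ℕ} {n : ℕ → ℕ} {v : ℕ → ℕ → ℂ} {w : ℕ → ℂ} (hP : Pieces K n v w) {m z : ℂ}
    (h : ∀ t : ℝ, 0 ≤ t → t ≤ 1 → ∀ k < K, ∀ i < n k, Off (sg m z t) (v k i) (v k (i + 1))) :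
    wd K n v m = wd K n v z := by
  have h1 := wd_const hP (f := fun s => sg m z (s : ℝ)) (by unfold sg; fun_prop) (by
    intro s k hk i hi t ht0 ht1
    exact h s s.2.1 s.2.2 k hk i hi t ht0 ht1)
  simpa [sg] using h1

/-- **Orientation.** A closed strand of ccw Delaunay triangles (left vertices `l`, right vertices
`r`, third vertices `a`) whose right side is joined to the outside off the left side, and whose left
side is joined to the inside off the right side, does not run clockwise around `0`. -/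
theorem not_clockwise {X : Set ℂ} (hXf : X.Finite) (hX : Three X) {N : ℕ} {l r a : ℕ → ℂ}
    (hN : 0 < N)
    (hface : ∀ i < N, nbr X (l i) (r i) ∧ nbr X (r i) (a i) ∧ nbr X (a i) (l i) ∧
      0 < cr (l i) (r i) (a i))
    (hst : ∀ i < N, (l (i + 1) = a i ∧ r (i + 1) = r i) ∨ (l (i + 1) = l i ∧ r (i + 1) = a i))
    (hl : l N = l 0) (hr : r N = r 0) {Bk Wt : Set ℂ} (hBX : Bk ⊆ X) (hWX : Wt ⊆ X)
    (hBW : Disjoint Bk Wt) (hlB : ∀ i ≤ N, l i ∈ Bk) (hrW : ∀ i ≤ N, r i ∈ Wt)
    {K : ℕ} (hK : 0 < K) {t : ℕ → ℕ} (t0 : t 0 = 0) (tN : t K = N) (htm : ∀ k < K, t k ≤ t (k + 1))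
    {C : ℕ → Set ℂ} (hC : ∀ k < K, Convex ℝ (C k)) (hO : ∀ k < K, IsOpen (C k))
    (hrC : ∀ k < K, ∀ i, t k ≤ i → i ≤ t (k + 1) → r i ∈ C k) {ρ ρ' : ℝ} (hρ : 0 ≤ ρ)
    (hCρ : ∀ k < K, ∀ z ∈ C k, ρ < nsup z) (hlρ : ∀ i ≤ N, nsup (l i) < ρ')
    (hdec : ∀ k < K, (conj (r (t k)) * r (t (k + 1))).im < 0)
    {m₁ : ℕ} {u₁ : ℕ → ℂ} (hu₁ : ∀ i < m₁, nbr X (u₁ i) (u₁ (i + 1))) (hu₁0 : u₁ 0 = r 0)
    (hu₁m : ρ' ≤ nsup (u₁ m₁)) (hu₁B : ∀ i ≤ m₁, u₁ i ∉ Bk)
    {m₂ : ℕ} {u₂ : ℕ → ℂ} (hu₂ : ∀ i < m₂, nbr X (u₂ i) (u₂ (i + 1))) (hu₂0 : nsup (u₂ 0) ≤ ρ)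
    (hu₂m : u₂ m₂ = l 0) (hu₂W : ∀ i ≤ m₂, ∀ j ≤ N, u₂ i ≠ r j) : False := by
  classical
  -- the two chains
  set vR : ℕ → ℕ → ℂ := fun k i => r (t k + i) with hvR
  set nR : ℕ → ℕ := fun k => t (k + 1) - t k with hnR
  set vL : ℕ → ℕ → ℂ := fun _ i => l i with hvL
  set nL : ℕ → ℕ := fun _ => N with hnL
  have tm : ∀ j ≤ K, ∀ k ≤ j, t k ≤ t j := by
    intro j
    induction j with
    | zero => intro _ k hk; have : k = 0 := by omega
              rw [this]
    | succ j ih =>
      intro hj k hk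
      rcases hk.lt_or_eq with h | h
      · exact (ih (by omega) k (by omega)).trans (htm j (by omega))
      · rw [h]
  have tle : ∀ k ≤ K, t k ≤ N := fun k hk => tN ▸ tm K le_rfl k hk
  have hPR : Pieces K nR vR (fun k => r (t k)) := by
    refine ⟨fun k _ => rfl, fun k hk => ?_, ?_⟩
    · show r (t k + (t (k + 1) - t k)) = _
      rw [Nat.add_sub_of_le (htm k hk)]
    · show r (t K) = r (t 0)
      rw [tN, t0, hr]
  have hPL : Pieces 1 nL vL (fun _ => l 0) := by
    refine ⟨fun k _ => rfl, fun k hk => hl, rfl⟩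
  have hidx : ∀ k < K, ∀ i ≤ nR k, t k + i ≤ t (k + 1) := by
    intro k hk i hi
    have := htm k hk
    have h2 : i ≤ t (k + 1) - t k := hi
    omega
  -- steps
  have hstepL : ∀ i < N, nbr X (l i) (l (i + 1)) ∨ l i = l (i + 1) := by
    intro i hi
    rcases hst i hi with ⟨h1, -⟩ | ⟨h1, -⟩
    · left; rw [h1]; exact nbr_symm (hface i hi).2.2.1
    · right; exact h1.symm
  have hstepR : ∀ i < N, nbr X (r i) (r (i + 1)) ∨ r i = r (i + 1) := by
    intro i hi
    rcases hst i hi with ⟨-, h1⟩ | ⟨-, h1⟩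
    · right; exact h1.symm
    · left; rw [h1]; exact (hface i hi).2.1
  have hvL' : ∀ k < 1, ∀ i < nL k, nbr X (vL k i) (vL k (i + 1)) ∨ vL k i = vL k (i + 1) :=
    fun k _ i hi => hstepL i hi
  have hvR' : ∀ k < K, ∀ i < nR k, nbr X (vR k i) (vR k (i + 1)) ∨ vR k i = vR k (i + 1) := by
    intro k hk i hi
    have h1 := hidx k hk (i + 1) hi
    have h2 := tle (k + 1) hk
    exact hstepR (t k + i) (by omega)
  have hvLB : ∀ k < 1, ∀ i ≤ nL k, vL k i ∈ Bk := fun k _ i hi => hlB i hi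
  set RS : Set ℂ := {z | ∃ j ≤ N, r j = z} with hRS
  have hRSX : RS ⊆ X := by
    rintro z ⟨j, hj, rfl⟩
    exact hWX (hrW j hj)
  have hvRR : ∀ k < K, ∀ i ≤ nR k, vR k i ∈ RS := by
    intro k hk i hi
    exact ⟨t k + i, (hidx k hk i hi).trans (tle (k + 1) hk), rfl⟩
  have hr0 : r 0 ∉ Bk := fun h => Set.disjoint_left.1 hBW h (hrW 0 (Nat.zero_le N))
  have hl0 : l 0 ∉ RS := by
    rintro ⟨j, hj, h⟩
    exact Set.disjoint_left.1 hBW (hlB 0 (Nat.zero_le N)) (h ▸ hrW j hj)
  -- left winding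
  have e1 : wd 1 nL vL (r 0) = 0 := by
    rw [← hu₁0, wd_path' hX hPL hBX hvL' hvLB hu₁ hu₁B]
    exact wd_zero hPL (convex_nsup_lt ρ') (isOpen_nsup_lt ρ')
      (fun k _ i hi => hlρ i hi) (hlρ 0 (Nat.zero_le N)) (not_lt.2 hu₁m)
  -- right winding
  have n0 : nsup (0 : ℂ) = 0 := by simp [nsup]
  have hvRC : ∀ k < K, ∀ i ≤ nR k, vR k i ∈ C k := fun k hk i hi =>
    hrC k hk _ (by omega) (hidx k hk i hi)
  have e2 : wd K nR vR (l 0) < 0 := by
    rw [← hu₂m, ← wd_path' hX hPR hRSX hvR' hvRR hu₂ (fun i hi => by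
      rintro ⟨j, hj, h⟩
      exact hu₂W i hi j hj h.symm)]
    have h3 : wd K nR vR (u₂ 0) = wd K nR vR 0 := by
      refine wd_seg hPR hC hvRC (convex_nsup_le ρ) (fun k hk => ?_) hu₂0
        (by rw [mem_ofPred_eq, n0]; exact hρ)
      rw [Set.disjoint_left]
      intro z hz hz'
      exact not_le.2 (hCρ k hk z hz) hz'
    rw [h3, wd_pieces hPR hC hO hvRC fun k hk h => by
      have := hCρ k hk _ h
      rw [n0] at this
      linarith]
    refine Finset.sum_neg (fun k hk => ang_neg ?_) ⟨0, Finset.mem_range.2 hK⟩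
    rw [sub_zero, sub_zero]
    exact hdec k (Finset.mem_range.1 hk)
  -- the middle of the first edge
  have hlr0 := (hface 0 hN).1
  have hne : l 0 ≠ r 0 := hlr0.2.2.1
  set m : ℂ := sg (l 0) (r 0) (1 / 2) with hm
  have e3 : wd 1 nL vL (r 0) = wd 1 nL vL m := wd_half hX hPL hBX hvL' hvLB hlr0 hr0
  have e4 : wd K nR vR (l 0) = wd K nR vR m := by
    rw [wd_half hX hPR hRSX hvR' hvRR (nbr_symm hlr0) hl0, sg_symm]
    norm_num [hm]
  -- the other edges
  set F : Set (ℂ × ℂ) := {p | (nbr X p.1 p.2 ∧ p ≠ (l 0, r 0) ∧ p ≠ (r 0, l 0)) ∨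
    (p.1 ∈ X ∧ p.1 = p.2)} with hF
  have hFf : F.Finite := by
    refine (hXf.prod hXf).subset ?_
    rintro ⟨x, y⟩ (⟨h1, -⟩ | ⟨h1, h2⟩)
    · exact ⟨h1.1, h1.2.1⟩
    · simp only at h1 h2
      exact ⟨h1, h2 ▸ h1⟩
  have hmF : ∀ p ∈ F, Off (sg (l 0) (r 0) (1 / 2)) p.1 p.2 := by
    rintro ⟨x, y⟩ hp t ht0 ht1
    rcases hp with ⟨h1, h2, h3⟩ | ⟨h1, h2⟩
    · simp only at h1
      by_cases hlx : l 0 = x
      · subst hlx
        have : r 0 ≠ y := fun h => h2 (by rw [h])
        exact share_off hlr0 h1 this (by norm_num) (by norm_num) ht0 ht1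
      by_cases hly : l 0 = y
      · subst hly
        have : r 0 ≠ x := fun h => h3 (by rw [h])
        simp only
        rw [sg_symm x]
        exact share_off hlr0 (nbr_symm h1) this (by norm_num) (by norm_num) (by linarith)
          (by linarith)
      by_cases hrx : r 0 = x
      · subst hrx
        simp only
        rw [sg_symm (l 0)]
        exact share_off (nbr_symm hlr0) h1 hly (by norm_num) (by norm_num) ht0 ht1
      by_cases hry : r 0 = y
      · subst hry
        simp only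
        rw [sg_symm (l 0), sg_symm x]
        exact share_off (nbr_symm hlr0) (nbr_symm h1) hlx (by norm_num) (by norm_num)
          (by linarith) (by linarith)
      exact seg_disjoint hX hlr0 h1 hlx hly hrx hry (by norm_num) (by norm_num) ht0 ht1
    · simp only at h1 h2
      subst h2
      simp only
      rw [sg_same]
      by_cases hlx : x = l 0
      · subst hlx
        intro he
        have e5 : (r 0 - l 0) = 0 := by
          unfold sg at he
          push_cast at he
          linear_combination (2 : ℂ) * he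
        exact hne (sub_eq_zero.1 e5).symm
      by_cases hrx : x = r 0
      · subst hrx
        intro he
        have e5 : (l 0 - r 0) = 0 := by
          unfold sg at he
          push_cast at he
          linear_combination (2 : ℂ) * he
        exact hne (sub_eq_zero.1 e5)
      exact vertex_off hlr0 h1 hlx hrx (by norm_num) (by norm_num)
  obtain ⟨z, -, hz1, hz2, hz3⟩ := exists_near hFf hne hmF one_pos
  -- membership of the chain edges in `F`
  have hLF : ∀ i < N, (l i, l (i + 1)) ∈ F := by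
    intro i hi
    rcases hstepL i hi with h1 | h1
    · left
      refine ⟨h1, ?_, ?_⟩
      · intro he
        have h9 : l (i + 1) = r 0 := congrArg Prod.snd he
        exact hr0 (h9 ▸ hlB (i + 1) hi)
      · intro he
        have h9 : l i = r 0 := congrArg Prod.fst he
        exact hr0 (h9 ▸ hlB i hi.le)
    · right
      exact ⟨hBX (hlB i hi.le), h1⟩
  have hRF : ∀ i < N, (r i, r (i + 1)) ∈ F := by
    intro i hi
    rcases hstepR i hi with h1 | h1
    · left
      refine ⟨h1, ?_, ?_⟩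
      · intro he
        have := congrArg Prod.fst he
        exact hl0 ⟨i, hi.le, this⟩
      · intro he
        have := congrArg Prod.snd he
        exact hl0 ⟨i + 1, hi, this⟩
    · right
      exact ⟨hWX (hrW i hi.le), h1⟩
  have e5 : wd 1 nL vL m = wd 1 nL vL z :=
    wd_near hPL fun x h0 h1 k _ i hi => hz3 x h0 h1 _ (hLF i hi)
  have e6 : wd K nR vR m = wd K nR vR z :=
    wd_near hPR fun x h0 h1 k hk i hi => by
      have h2 := hidx k hk (i + 1) hi
      have h3 := tle (k + 1) hk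
      exact hz3 x h0 h1 _ (hRF (t k + i) (by omega))
  -- the inequality between the sides
  have hoff : ∀ x y, nbr X x y → Off z x y := by
    intro x y hxy
    by_cases h1 : (x, y) = (l 0, r 0)
    · have e7 := congrArg Prod.fst h1
      have e8 := congrArg Prod.snd h1
      simp only at e7 e8
      rw [e7, e8]; exact hz2
    by_cases h2 : (x, y) = (r 0, l 0)
    · have e7 := congrArg Prod.fst h2
      have e8 := congrArg Prod.snd h2
      simp only at e7 e8
      rw [e7, e8]; exact hz2.symm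
    exact hz1 (x, y) (Or.inl ⟨hxy, h1, h2⟩)
  have h7 := sides_le (z := z) (fun i hi => hoff _ _ (hface i hi).1)
    (fun i hi => hoff _ _ (hface i hi).2.1) (fun i hi => hoff _ _ (hface i hi).2.2.1)
    (fun i hi => (hface i hi).2.2.2) hst hl hr
  have e7 : wd 1 nL vL z = ∑ i ∈ Finset.range N, ang z (l i) (l (i + 1)) := by
    unfold wd
    simp [hnL, hvL]
  have e8 : wd K nR vR z = ∑ i ∈ Finset.range N, ang z (r i) (r (i + 1)) := by
    rw [← tN, ← sum_blocks (fun i => ang z (r i) (r (i + 1))) t0 K htm]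
    rfl
  rw [← e7, ← e8, ← e5, ← e6, ← e3, ← e4, e1] at h7
  linarith

end Vale.Agent.P148.R2.H678
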